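import Vale.Agent.P243.Third.Body

/-!
Affine invariance, normal position through a simplex of maximal volume, and the covering bound.
-/

namespace Vale.Agent.P243.Third

open Set MeasureTheory Metric
open scoped RealInnerProductSpace ENNReal

/-- The Minkowski sum of K with the segment from 0 to v. -/
def sweep (K : Set R3) (v : R3) : Set R3 := image2 (fun x (s : ℝ) => x + s • v) K (Icc 0 1)

lemma sweep_compact {K : Set R3} (hK : IsCompact K) (v : R3) : IsCompact (sweep K v) := by
  rw [sweep, ← image_uncurry_prod]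
  exact (hK.prod isCompact_Icc).image (by fun_prop)

lemma image_coords {K : Set R3} {e n u : R3} {ψ : R3 ≃ₜ G3}
    (hψ : ∀ x, ψ x = ((⟪e, x⟫, ⟪n, x⟫), ⟪u, x⟫)) (hK : Convex ℝ K) : Convex ℝ (ψ '' K) := by
  have : ψ '' K = ((pr e n).prod (innerSL ℝ u)) '' K := image_congr fun x _ => hψ x
  rw [this]; exact hK.linear_image ((pr e n).prod (innerSL ℝ u)).toLinearMap

lemma sweep_volume {K : Set R3} (hK : IsCompact K) (hc : Convex ℝ K) {u : R3} (hu : ‖u‖ = 1)
    {M : ℝ} (hM : 0 ≤ M) :
    (volume (sweep K (M • u))).toReal = (volume K).toReal + M * (shadowArea u K).toReal := by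
  obtain ⟨e, n, ψ, he, hn, hen, heu, hnu, hmp, hψ⟩ := frame hu
  have hvol : ∀ S : Set R3, volume S = volume (ψ '' S) := fun S => by
    rw [← hmp.measure_preimage_emb ψ.measurableEmbedding (ψ '' S), preimage_image_eq _ ψ.injective]
  have hcK : IsCompact (ψ '' K) := hK.image ψ.continuous
  have hline : ∀ (x : R3) (s : ℝ), ψ (x + s • M • u) = ((ψ x).1, (ψ x).2 + s * M) := fun x s => by
    simp [hψ, inner_add_right, inner_smul_right, smul_smul, heu, hnu, hu]
  have hfibre : ∀ y : ℝ × ℝ, volume (Prod.mk y ⁻¹' (ψ '' sweep K (M • u))) =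
      volume (Prod.mk y ⁻¹' (ψ '' K)) + (shadow (ψ '' K)).indicator (fun _ => ENNReal.ofReal M) y := by
    intro y
    have hmem : ∀ t, (y, t) ∈ ψ '' sweep K (M • u) ↔
        ∃ t' s, (y, t') ∈ ψ '' K ∧ s ∈ Icc (0:ℝ) 1 ∧ t' + s * M = t := by
      intro t
      constructor
      · rintro ⟨_, ⟨x, hx, s, hs, rfl⟩, hz⟩
        rw [hline, Prod.mk.injEq] at hz
        exact ⟨(ψ x).2, s, ⟨x, hx, Prod.ext hz.1 rfl⟩, hs, hz.2⟩
      · rintro ⟨t', s, ⟨x, hx, hxt⟩, hs, rfl⟩
        exact ⟨_, ⟨x, hx, s, hs, rfl⟩, by rw [hline, hxt]⟩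
    rcases fibre_Icc hcK (image_coords hψ hc) y with h | ⟨a, b, hab, h⟩
    · have hy : y ∉ shadow (ψ '' K) := by
        rintro ⟨⟨y', t⟩, ht, rfl⟩; exact eq_empty_iff_forall_notMem.1 h t ht
      have : Prod.mk y ⁻¹' (ψ '' sweep K (M • u)) = ∅ := eq_empty_of_forall_notMem fun t ht => by
        obtain ⟨t', -, ht', -⟩ := (hmem t).1 ht
        exact eq_empty_iff_forall_notMem.1 h t' ht'
      rw [this, h, indicator_of_notMem hy, add_zero]
    · have hm : ∀ t, (y, t) ∈ ψ '' K ↔ a ≤ t ∧ t ≤ b := fun t => by
        rw [← mem_preimage (f := Prod.mk y), h]; rfl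
      have hy : y ∈ shadow (ψ '' K) := ⟨(y, a), (hm a).2 ⟨le_rfl, hab⟩, rfl⟩
      have : Prod.mk y ⁻¹' (ψ '' sweep K (M • u)) = Icc a (b + M) := by
        ext t
        rw [mem_preimage, hmem, mem_Icc]
        constructor
        · rintro ⟨t', s, ht', hs, rfl⟩
          have := (hm t').1 ht'
          constructor <;> nlinarith [hs.1, hs.2]
        · rintro ⟨h1, h2⟩
          rcases le_or_gt t b with htb | htb
          · exact ⟨t, 0, (hm t).2 ⟨h1, htb⟩, ⟨le_rfl, zero_le_one⟩, by ring⟩
          · have hMp : 0 < M := by linarith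
            refine ⟨b, (t - b) / M, (hm b).2 ⟨hab, le_rfl⟩,
              ⟨div_nonneg (by linarith) hMp.le, ?_⟩, by field_simp; ring⟩
            rw [div_le_one hMp]; linarith
      rw [this, h, indicator_of_mem hy, Real.volume_Icc, Real.volume_Icc,
        ← ENNReal.ofReal_add (by linarith) hM]
      congr 1; ring
  have hS : IsCompact (ψ '' sweep K (M • u)) := (sweep_compact hK _).image ψ.continuous
  have hshm : MeasurableSet (shadow (ψ '' K)) := (hcK.image continuous_fst).measurableSet
  have h1 : volume (sweep K (M • u)) = volume K + ENNReal.ofReal M * shadowArea u K := by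
    rw [hvol, hvol K, ← shadow_eq he hn hu hen heu hnu hψ, Measure.volume_eq_prod,
      Measure.prod_apply hS.measurableSet, Measure.prod_apply hcK.measurableSet,
      lintegral_congr hfibre, lintegral_add_left (measurable_measure_prodMk_left hcK.measurableSet),
      lintegral_indicator_const hshm]
  have hfin : shadowArea u K ≠ ∞ := by
    rw [← shadow_eq he hn hu hen heu hnu hψ]; exact (hcK.image continuous_fst).measure_ne_top
  rw [h1, ENNReal.toReal_add hK.measure_ne_top (ENNReal.mul_ne_top ENNReal.ofReal_ne_top hfin),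
    ENNReal.toReal_mul, ENNReal.toReal_ofReal hM]

lemma len_scale (A : Set R3) (x u : R3) {k : ℝ} (hk : 0 < k) :
    len A x (k • u) = k⁻¹ * len A x u := by
  have e : (fun t : ℝ => x + t • k • u) ⁻¹' A =
      (fun t : ℝ => t * k) ⁻¹' ((fun t : ℝ => x + t • u) ⁻¹' A) := by
    ext t; simp [smul_smul]
  rw [len, len, e, Real.volume_preimage_mul_right hk.ne', ENNReal.toReal_mul,
    ENNReal.toReal_ofReal (abs_nonneg _), abs_of_pos (inv_pos.2 hk)]

lemma improved_affine {τ : ℝ} {K' : Set R3} (hK' : IsCompact K') (hc' : Convex ℝ K')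
    (h : Improved τ K') (T : R3 ≃ₗ[ℝ] R3) (a : R3) :
    Improved τ ((fun x => a + T x) '' K') := by
  obtain ⟨K₀, hm₀, hsub, l, hl0, hl1, hI⟩ := h
  set f : R3 → R3 := fun x => a + T x with hf
  have hinv : ∀ S : Set R3, f '' S = (fun x => T.symm (x - a)) ⁻¹' S := fun S => by
    ext y
    constructor
    · rintro ⟨x, hx, rfl⟩; simpa [hf] using hx
    · intro hy; exact ⟨_, hy, by simp [hf]⟩
  set D := |LinearMap.det (T : R3 →ₗ[ℝ] R3)| with hD
  have hvol : ∀ S : Set R3, (volume (f '' S)).toReal = D * (volume S).toReal := fun S => by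
    rw [hf, ← image_image (fun y => a + y) T, image_add_left, measure_preimage_add,
      show (T : R3 → R3) = ⇑(T : R3 →ₗ[ℝ] R3) from rfl, Measure.addHaar_image_linearMap,
      ENNReal.toReal_mul, ENNReal.toReal_ofReal (abs_nonneg _)]
  have hcont : Continuous f := continuous_const.add T.toContinuousLinearEquiv.continuous
  refine ⟨f '' K₀, ?_, image_mono hsub, l, hl0, hl1, fun u x hu => ?_⟩
  · rw [hinv]
    exact hm₀.preimage (T.symm.toContinuousLinearEquiv.continuous.comp
      (continuous_id.sub continuous_const)).measurable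
  set k := ‖T.symm u‖ with hk
  have hk0 : 0 < k := norm_pos_iff.2 fun h0 => by
    have : u = 0 := T.symm.injective (h0.trans (map_zero _).symm)
    rw [this, norm_zero] at hu; norm_num at hu
  set u' := k⁻¹ • T.symm u with hu'
  have hu'1 : ‖u'‖ = 1 := norm_smul_inv_norm (norm_pos_iff.1 hk0)
  have hku : k • u' = T.symm u := smul_inv_smul₀ hk0.ne' _
  have hlen : ∀ S : Set R3, len (f '' S) x u = k⁻¹ * len S (T.symm (x - a)) u' := fun S => by
    rw [← len_scale _ _ _ hk0, hku, len, len, hinv, preimage_preimage]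
    congr 2
    ext t
    simp [add_sub_right_comm]
  have hsw : sweep (f '' K') u = f '' sweep K' (T.symm u) := by
    rw [sweep, sweep, image2_image_left, image_image2]
    refine image2_congr fun x _ s _ => ?_
    simp [hf, add_assoc]
  have h1 := sweep_volume (hK'.image hcont) (by
    rw [hf, ← image_image (fun y => a + y) T]
    exact (hc'.linear_image T.toLinearMap).translate a) hu zero_le_one
  rw [one_smul, hsw, hvol, hvol, ← hku, sweep_volume hK' hc' hu'1 hk0.le, one_mul] at h1
  have hsh : (shadowArea u (f '' K')).toReal = D * k * (shadowArea u' K').toReal := by linarith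
  rw [hlen, hlen, hsh, hvol, hvol]
  have := mul_le_mul_of_nonneg_left (hI u' (T.symm (x - a)) hu'1) (show 0 ≤ D from abs_nonneg _)
  calc _ = D * (((1 - l) * len K' (T.symm (x - a)) u' + l * len K₀ (T.symm (x - a)) u') *
        (shadowArea u' K').toReal) := by field_simp
    _ ≤ _ := this
    _ = _ := by ring

/-- Every convex body is an affine image of one in normal position. -/
lemma exists_normal {K : Set R3} (hK : IsCompact K) (hc : Convex ℝ K)
    (hint : (interior K).Nonempty) :
    ∃ (T : R3 ≃ₗ[ℝ] R3) (a : R3) (K' : Set R3), Normal K' ∧ K = (fun x => a + T x) '' K' := by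
  let M : (Fin 4 → R3) → Matrix (Fin 3) (Fin 3) ℝ :=
    fun w => Matrix.of fun i j => w j.succ i - w 0 i
  have hcont : Continuous fun w => |(M w).det| := by
    refine (Continuous.matrix_det ?_).abs
    refine continuous_matrix fun i j => ?_
    simp only [M, Matrix.of_apply]; fun_prop
  obtain ⟨p, hp⟩ := hint
  obtain ⟨ε, hε, hball⟩ := Metric.isOpen_iff.1 isOpen_interior p hp
  let w₁ : Fin 4 → R3 := Fin.cases p fun j => p + EuclideanSpace.single j (ε / 2)
  have hw₁ : w₁ ∈ univ.pi fun _ : Fin 4 => K := by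
    intro i _
    refine Fin.cases ?_ ?_ i
    · exact interior_subset hp
    · intro j
      refine interior_subset (hball ?_)
      simp [w₁, abs_of_pos hε]; linarith
  obtain ⟨w, hw, hmax⟩ :=
    (isCompact_univ_pi fun _ : Fin 4 => hK).exists_isMaxOn ⟨w₁, hw₁⟩ hcont.continuousOn
  have hdet : (M w).det ≠ 0 := by
    have h := hmax hw₁
    simp only [mem_ofPred_eq] at h
    have e : M w₁ = Matrix.diagonal fun _ => ε / 2 := by
      ext i j
      by_cases hij : i = j <;> simp [M, w₁, hij]
    rw [e, Matrix.det_diagonal] at h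
    intro h0
    rw [h0, abs_zero, Finset.prod_const] at h
    have : 0 < (ε / 2) ^ (Finset.univ : Finset (Fin 3)).card := by positivity
    rw [abs_of_pos this] at h
    linarith
  set L : R3 →ₗ[ℝ] R3 := Matrix.toEuclideanLin (M w) with hL
  have hLv : ∀ (z : R3) i, (L z) i = ∑ j, M w i j * z j := fun z i => by
    simp [hL, Matrix.toLpLin_apply, Matrix.mulVec, dotProduct]
  have hLinj : Function.Injective L := by
    rw [injective_iff_map_eq_zero]
    intro z hz
    have : (M w).mulVec (fun j => z j) = 0 := by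
      funext i
      have := congrArg (fun v : R3 => v i) hz
      simp only [hLv] at this
      simpa [Matrix.mulVec, dotProduct] using this
    have := Matrix.eq_zero_of_mulVec_eq_zero hdet this
    ext j; simpa using congrFun this j
  let T : R3 ≃ₗ[ℝ] R3 := LinearEquiv.ofInjectiveEndo L hLinj
  have hT : ∀ z, T z = L z := fun z => rfl
  set K' : Set R3 := (fun x => w 0 + T x) ⁻¹' K with hK'
  have himg : (fun x => w 0 + T x) '' K' = K :=
    image_preimage_eq _ fun y => ⟨T.symm (y - w 0), by simp⟩
  have hK'e : K' = (fun x => T.symm (x - w 0)) '' K := by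
    ext z
    constructor
    · intro hz; exact ⟨_, hz, by simp⟩
    · rintro ⟨x, hx, rfl⟩; simpa [hK'] using hx
  have hc' : Convex ℝ K' := by
    intro x hx y hy r s hr hs hrs
    have := hc hx hy hr hs hrs
    simp only [hK', mem_preimage, map_add, map_smul]
    convert this using 1
    simp only [smul_add]
    rw [show r • w 0 + r • T x + (s • w 0 + s • T y) = (r + s) • w 0 + (r • T x + s • T y) by
      rw [add_smul]; abel, hrs, one_smul]
  refine ⟨T, w 0, K', ⟨?_, hc', ?_, ?_⟩, himg.symm⟩
  · rw [hK'e]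
    exact hK.image (T.symm.toContinuousLinearEquiv.continuous.comp
      (continuous_id.sub continuous_const))
  · intro z hz
    have hzi : ∀ i, |z i| ≤ 1 := by
      intro i
      have hw' : Function.update w i.succ (w 0 + T z) ∈ univ.pi fun _ : Fin 4 => K := by
        intro j _
        by_cases hj : j = i.succ
        · subst hj; simpa [hK'] using hz
        · simpa [hj] using hw j (mem_univ _)
      have h := hmax hw'
      simp only [mem_ofPred_eq] at h
      have e : M (Function.update w i.succ (w 0 + T z)) =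
          (M w).updateCol i (fun k => ∑ j, z j • M w k j) := by
        ext k j
        by_cases hj : j = i
        · subst hj
          simp [M, Function.update_of_ne (Fin.succ_ne_zero j).symm, hT, hLv, mul_comm]
        · have : (j.succ : Fin 4) ≠ i.succ := fun h => hj (Fin.succ_inj.1 h)
          simp [M, Matrix.updateCol_ne hj, Function.update_of_ne this,
            Function.update_of_ne (Fin.succ_ne_zero i).symm]
      rw [e, Matrix.det_updateCol_sum, smul_eq_mul, abs_mul] at h
      exact le_of_mul_le_mul_right (by rwa [one_mul]) (abs_pos.2 hdet)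
    rw [mem_closedBall, dist_zero_right]
    have e : ‖z‖ ^ 2 = ∑ i, z i ^ 2 := by
      rw [EuclideanSpace.norm_sq_eq]; simp
    rw [Fin.sum_univ_three] at e
    have := sq_le_sq' (abs_le.1 (hzi 0)).1 (abs_le.1 (hzi 0)).2
    have := sq_le_sq' (abs_le.1 (hzi 1)).1 (abs_le.1 (hzi 1)).2
    have := sq_le_sq' (abs_le.1 (hzi 2)).1 (abs_le.1 (hzi 2)).2
    nlinarith [norm_nonneg z]
  · refine ⟨WithLp.toLp 2 fun _ => (1 / 5 : ℝ), fun z hz => ?_⟩
    rw [mem_closedBall, dist_eq_norm] at hz
    have hzi : ∀ i, |z i - 1 / 5| ≤ 1 / 10 := fun i =>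
      le_trans (by
        have := PiLp.norm_apply_le (z - WithLp.toLp 2 fun _ => (1 / 5 : ℝ)) i
        rw [Real.norm_eq_abs] at this
        simpa using this) hz
    have a0 := abs_le.1 (hzi 0); have a1 := abs_le.1 (hzi 1); have a2 := abs_le.1 (hzi 2)
    let c : Fin 4 → ℝ := Fin.cases (1 - z 0 - z 1 - z 2) fun j => z j
    have hcs : ∑ j, c j = 1 := by
      rw [Fin.sum_univ_succ, Fin.sum_univ_three]
      simp only [c, Fin.cases_zero, Fin.cases_succ]; ring
    have hc0 : ∀ j, 0 ≤ c j := by
      intro j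
      refine Fin.cases ?_ ?_ j
      · simp only [c, Fin.cases_zero]; linarith
      · intro i; simp only [c, Fin.cases_succ]; linarith [(abs_le.1 (hzi i)).1]
    have hmem := hc.sum_mem (t := Finset.univ) (fun j _ => hc0 j) hcs (z := w)
      fun j _ => hw j (mem_univ _)
    show w 0 + T z ∈ K
    convert hmem using 1
    ext i
    rw [Fin.sum_univ_succ, Fin.sum_univ_three]
    simp only [c, Fin.cases_zero, Fin.cases_succ]
    simp [hT, hLv, M, Fin.sum_univ_three]
    ring

/-- The bound for coverings. -/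
lemma covering_bound {τ : ℝ} (hτ : τ ≤ 1) {K : Set R3} (hK : IsCompact K) (hint : (interior K).Nonempty) (hI : Improved τ K) {m : ℕ} (u : Fin m → R3)
    (hu : ∀ i, ‖u i‖ = 1) (B : ∀ i, Set ↥(orthPlane (u i)))
    (hcov : K ⊆ ⋃ i, cylinderOver (orthPlane (u i)) (B i)) :
    ENNReal.ofReal (1 / (3 - τ)) ≤ ∑ i, area (orthPlane (u i)) (B i) / shadowArea (u i) K := by
  obtain ⟨K₀, hm₀, hsub, l, hl0, hl1, hI⟩ := hI
  set W := (1 - l) * (volume K).toReal + l * (volume K₀).toReal with hW
  have hKfin : volume K ≠ ∞ := hK.measure_ne_top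
  have hWp : 0 < W := by
    have hV : 0 < (volume K).toReal := ENNReal.toReal_pos
      ((measure_mono_null interior_subset).mt (isOpen_interior.measure_pos volume hint).ne') hKfin
    have := mul_nonneg hl0 (ENNReal.toReal_nonneg (a := volume K₀))
    have := mul_pos (show 0 < 1 - l by linarith) hV
    linarith
  have key : ∀ i, ENNReal.ofReal (1 - l) * volume (K ∩ cylinderOver (orthPlane (u i)) (B i)) +
      ENNReal.ofReal l * volume (K₀ ∩ cylinderOver (orthPlane (u i)) (B i)) ≤
      area (orthPlane (u i)) (B i) / shadowArea (u i) K * ENNReal.ofReal ((3 - τ) * W) := by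
    intro i
    obtain ⟨e, n, ψ, he, hn, hen, heu, hnu, hmp, hψ⟩ := frame (hu i)
    have hne : u i ≠ 0 := norm_ne_zero_iff.1 (by rw [hu i]; norm_num)
    obtain ⟨φ, hφ, hφx⟩ := plane_coords finrank_euclideanSpace_fin hne he hn hen heu hnu
    set U := toMeasurable volume (φ '' B i) with hU
    have hUm : MeasurableSet U := measurableSet_toMeasurable _ _
    have hUv : volume U = area (orthPlane (u i)) (B i) := by
      rw [hU, measure_toMeasurable]
      exact (hφ.measure_preimage_emb φ.measurableEmbedding _).symm.trans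
        (congrArg volume (preimage_image_eq _ φ.injective))
    have hcyl : cylinderOver (orthPlane (u i)) (B i) ⊆ ψ ⁻¹' (U ×ˢ univ) := by
      intro x hx
      refine ⟨subset_toMeasurable _ _ ⟨_, hx, ?_⟩, mem_univ _⟩
      rw [hψ]; exact hφx x
    have hpart : ∀ A : Set R3, MeasurableSet A → A ⊆ K →
        volume (A ∩ cylinderOver (orthPlane (u i)) (B i)) ≤
          ∫⁻ y in U, ENNReal.ofReal (len A (ψ.symm (y, 0)) (u i)) := by
      intro A hA hAK
      refine (measure_mono (inter_subset_inter_right A hcyl)).trans (le_of_eq ?_)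
      have hm' : MeasurableSet (ψ.symm ⁻¹' A ∩ U ×ˢ univ) :=
        (hA.preimage ψ.symm.continuous.measurable).inter (hUm.prod MeasurableSet.univ)
      have e' : A ∩ ψ ⁻¹' (U ×ˢ univ) = ψ ⁻¹' (ψ.symm ⁻¹' A ∩ U ×ˢ univ) := by
        ext x; simp
      rw [e', hmp.measure_preimage_emb ψ.measurableEmbedding, Measure.volume_eq_prod,
        Measure.prod_apply hm', ← lintegral_indicator hUm]
      refine lintegral_congr fun y => ?_
      by_cases hy : y ∈ U
      · have hl : ∀ t : ℝ, ψ.symm (y, t) = ψ.symm (y, 0) + t • u i := fun t => by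
          apply ψ.injective
          rw [ψ.apply_symm_apply, hψ]
          have h0 := ψ.apply_symm_apply (y, 0)
          rw [hψ] at h0
          have ha := congrArg (fun q : G3 => q.1.1) h0
          have hb := congrArg (fun q : G3 => q.1.2) h0
          have hc := congrArg (fun q : G3 => q.2) h0
          dsimp only at ha hb hc
          simp [inner_add_right, inner_smul_right, heu, hnu, hu i, ha, hb, hc]
        have hpre : Prod.mk y ⁻¹' (ψ.symm ⁻¹' A ∩ U ×ˢ univ) =
            (fun t : ℝ => ψ.symm (y, 0) + t • u i) ⁻¹' A := by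
          ext t; simp [hy, ← hl t]
        rw [indicator_of_mem hy, hpre, len, ENNReal.ofReal_toReal]
        refine ne_top_of_le_ne_top ?_ (measure_mono (preimage_mono hAK))
        have hc' : IsCompact ((fun t : ℝ => ψ.symm (y, 0) + t • u i) ⁻¹' K) :=
          Topology.IsClosedEmbedding.isCompact_preimage
            ((Homeomorph.addLeft (ψ.symm (y, 0))).isClosedEmbedding.comp
              (isClosedEmbedding_smul_left hne)) hK
        exact hc'.measure_ne_top
      · rw [indicator_of_notMem hy, show Prod.mk y ⁻¹' (ψ.symm ⁻¹' A ∩ U ×ˢ univ) = ∅ by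
          ext t; simp [hy], measure_empty]
    have hshfin : shadowArea (u i) K ≠ ∞ := by
      rw [← shadow_eq he hn (hu i) hen heu hnu hψ]
      exact ((hK.image ψ.continuous).image continuous_fst).measure_ne_top
    have hsh0 : shadowArea (u i) K ≠ 0 := by
      rw [shadowArea, projArea, area, orthPlane]
      exact (proj_area finrank_euclideanSpace_fin hne he hn hen heu hnu K).trans_ne
        (area_ne_zero he hn hen hint)
    set P := (shadowArea (u i) K).toReal with hP
    have hP0 : 0 < P := ENNReal.toReal_pos hsh0 hshfin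
    have h1 := hpart K hK.measurableSet subset_rfl
    have h2 := hpart K₀ hm₀ hsub
    calc _ ≤ ENNReal.ofReal (1 - l) * (∫⁻ y in U, ENNReal.ofReal (len K (ψ.symm (y, 0)) (u i))) +
          ENNReal.ofReal l * (∫⁻ y in U, ENNReal.ofReal (len K₀ (ψ.symm (y, 0)) (u i))) :=
          add_le_add (mul_le_mul' le_rfl h1) (mul_le_mul' le_rfl h2)
      _ ≤ ∫⁻ y in U, (ENNReal.ofReal (1 - l) * ENNReal.ofReal (len K (ψ.symm (y, 0)) (u i)) +
          ENNReal.ofReal l * ENNReal.ofReal (len K₀ (ψ.symm (y, 0)) (u i))) := by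
          rw [← lintegral_const_mul' _ _ ENNReal.ofReal_ne_top,
            ← lintegral_const_mul' _ _ ENNReal.ofReal_ne_top]
          exact le_lintegral_add _ _
      _ ≤ ∫⁻ _ in U, ENNReal.ofReal ((3 - τ) * W / P) := by
          refine setLIntegral_mono measurable_const fun y _ => ?_
          rw [← ENNReal.ofReal_mul (by linarith), ← ENNReal.ofReal_mul hl0,
            ← ENNReal.ofReal_add
              (mul_nonneg (by linarith) (show 0 ≤ len K _ _ from ENNReal.toReal_nonneg))
              (mul_nonneg hl0 (show 0 ≤ len K₀ _ _ from ENNReal.toReal_nonneg))]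
          exact ENNReal.ofReal_le_ofReal ((le_div_iff₀ hP0).2 (hI (u i) _ (hu i)))
      _ = _ := by
          rw [setLIntegral_const, hUv, ENNReal.ofReal_div_of_pos hP0, hP,
            ENNReal.ofReal_toReal hshfin, div_eq_mul_inv, div_eq_mul_inv]
          ring
  have hsum : ENNReal.ofReal W ≤
      (∑ i, area (orthPlane (u i)) (B i) / shadowArea (u i) K) * ENNReal.ofReal ((3 - τ) * W) := by
    have hA : ∀ A : Set R3, A ⊆ K →
        volume A ≤ ∑ i, volume (A ∩ cylinderOver (orthPlane (u i)) (B i)) := by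
      intro A hAK
      refine le_trans (measure_mono (fun x hx => ?_)) (measure_iUnion_fintype_le _ _)
      obtain ⟨i, hi⟩ := mem_iUnion.1 (hcov (hAK hx))
      exact mem_iUnion.2 ⟨i, hx, hi⟩
    rw [hW, ENNReal.ofReal_add (mul_nonneg (by linarith) ENNReal.toReal_nonneg)
      (mul_nonneg hl0 ENNReal.toReal_nonneg), ENNReal.ofReal_mul (by linarith),
      ENNReal.ofReal_mul hl0, ENNReal.ofReal_toReal hKfin,
      ENNReal.ofReal_toReal (measure_ne_top_of_subset hsub hKfin), Finset.sum_mul]
    refine (add_le_add (mul_le_mul' le_rfl (hA K subset_rfl)) (mul_le_mul' le_rfl (hA K₀ hsub))).trans ?_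
    rw [Finset.mul_sum, Finset.mul_sum, ← Finset.sum_add_distrib]
    exact Finset.sum_le_sum fun i _ => key i
  have hpos : 0 < (3 - τ) * W := mul_pos (by linarith) hWp
  have := ENNReal.div_le_of_le_mul hsum
  rw [← ENNReal.ofReal_div_of_pos hpos, div_mul_cancel_right₀ hWp.ne', ← one_div] at this
  exact this

/-- The covering constant exceeds one third by an absolute amount. -/
theorem exists_const : ∃ c : ℝ, 1 / 3 < c ∧ ∀ (K : Set R3), IsCompact K → Convex ℝ K →
    (interior K).Nonempty → ∀ (m : ℕ) (u : Fin m → R3), (∀ i, ‖u i‖ = 1) →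
      ∀ B : ∀ i, Set ↥(orthPlane (u i)), K ⊆ ⋃ i, cylinderOver (orthPlane (u i)) (B i) →
        ENNReal.ofReal c ≤ ∑ i, area (orthPlane (u i)) (B i) / shadowArea (u i) K := by
  obtain ⟨τ, hτ0, hτ1, hτ⟩ := improved_normal
  refine ⟨1 / (3 - τ), ?_, fun K hK hc hint m u hu B hcov => ?_⟩
  · rw [div_lt_div_iff₀ (by norm_num) (by linarith)]; linarith
  obtain ⟨T, a, K', hK', rfl⟩ := exists_normal hK hc hint
  exact covering_bound hτ1 hK hint (improved_affine hK'.compact hK'.convex (hτ K' hK') T a)
    u hu B hcov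

end Vale.Agent.P243.Third
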