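import Vale.Agent.P243.Defs

/-!
A packing bound: the points of a convex body that have two well separated approximate normals
are covered by O(1/ρ) balls of radius ρ. The proof uses the nearest point map.
-/

namespace Vale.Agent.P243.Third

open Set MeasureTheory Metric
open scoped RealInnerProductSpace ENNReal

/-- Compact convex, inside the ball of radius 2, containing a ball of radius 1/10. -/
structure Normal (K : Set R3) : Prop where
  compact : IsCompact K
  convex : Convex ℝ K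
  bound : K ⊆ closedBall 0 2
  inner : ∃ c, closedBall c (1 / 10) ⊆ K

/-- p has two δ-approximate normals whose directions are θ apart. -/
def Ridge (K : Set R3) (δ θ : ℝ) (p : R3) : Prop :=
  p ∈ K ∧ ∃ n₀ n₁ : R3, (∀ s ∈ Icc (0 : ℝ) 1, 1 ≤ ‖(1 - s) • n₀ + s • n₁‖) ∧
    (∀ x ∈ K, ⟪n₀, x - p⟫ ≤ δ) ∧ (∀ x ∈ K, ⟪n₁, x - p⟫ ≤ δ) ∧
    θ ≤ ‖‖n₁‖⁻¹ • n₁ - ‖n₀‖⁻¹ • n₀‖

/-- Unit approximate normals at a point, pairwise ρ apart. -/
lemma ridge_normals {K : Set R3} {δ θ ρ : ℝ} {p : R3} (h : Ridge K δ θ p) (hδ : 0 ≤ δ)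
    (hρ : 0 < ρ) :
    ∃ m : Fin ⌈θ / ρ⌉₊ → R3, (∀ j, ‖m j‖ = 1) ∧ (∀ j, ∀ x ∈ K, ⟪m j, x - p⟫ ≤ δ) ∧
      ∀ i j, i ≠ j → ρ ≤ ‖m i - m j‖ := by
  obtain ⟨-, n₀, n₁, hn, h0, h1, hsep⟩ := h
  set n : ℝ → R3 := fun s => (1 - s) • n₀ + s • n₁ with hn'
  set g : ℝ → R3 := fun s => ‖n s‖⁻¹ • n s with hg
  have hpos : ∀ s ∈ Icc (0 : ℝ) 1, (0:ℝ) < ‖n s‖ := fun s hs => lt_of_lt_of_le one_pos (hn s hs)
  have hgc : ContinuousOn g (Icc 0 1) := by
    have hc : Continuous n := by fun_prop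
    exact (hc.norm.continuousOn.inv₀ fun s hs => (hpos s hs).ne').smul hc.continuousOn
  have hf : ContinuousOn (fun s => ‖g s - g 0‖) (Icc 0 1) :=
    (hgc.sub continuousOn_const).norm
  have hex : ∀ j : Fin ⌈θ / ρ⌉₊, ∃ s ∈ Icc (0 : ℝ) 1, ‖g s - g 0‖ = (j : ℕ) * ρ := by
    intro j
    have hj : ((j : ℕ) : ℝ) < θ / ρ := Nat.lt_ceil.1 j.2
    rw [lt_div_iff₀ hρ] at hj
    obtain ⟨s, hs, hs'⟩ := intermediate_value_Icc zero_le_one hf
      (show ((j : ℕ) : ℝ) * ρ ∈ Icc (‖g 0 - g 0‖) (‖g 1 - g 0‖) from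
        ⟨by simp; positivity, hj.le.trans (by simpa [hg, hn'] using hsep)⟩)
    exact ⟨s, hs, hs'⟩
  choose s hs hs' using hex
  refine ⟨fun j => g (s j), fun j => ?_, fun j x hx => ?_, fun i j hij => ?_⟩
  · simp only [hg]
    exact norm_smul_inv_norm (norm_ne_zero_iff.1 (hpos _ (hs j)).ne')
  · simp only [hg, real_inner_smul_left]
    have hle : ⟪n (s j), x - p⟫ ≤ δ := by
      simp only [hn', inner_add_left, real_inner_smul_left]
      have := mul_le_mul_of_nonneg_left (h0 x hx) (sub_nonneg.2 (hs j).2)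
      have := mul_le_mul_of_nonneg_left (h1 x hx) (hs j).1
      linarith
    rw [inv_mul_le_iff₀ (hpos _ (hs j))]
    exact hle.trans (le_mul_of_one_le_left hδ (hn _ (hs j)))
  · have hne : (1 : ℝ) ≤ |((i : ℕ) : ℝ) - ((j : ℕ) : ℝ)| := by
      rcases Nat.lt_or_gt_of_ne (Fin.val_ne_of_ne hij) with h | h
      · rw [abs_sub_comm]
        have : ((i : ℕ) : ℝ) + 1 ≤ (j : ℕ) := by exact_mod_cast h
        exact le_trans (by linarith) (le_abs_self _)
      · have : ((j : ℕ) : ℝ) + 1 ≤ (i : ℕ) := by exact_mod_cast h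
        exact le_trans (by linarith) (le_abs_self _)
    have := abs_norm_sub_norm_le (g (s i) - g 0) (g (s j) - g 0)
    rw [hs', hs', ← sub_mul, abs_mul, abs_of_pos hρ] at this
    simp only [sub_sub_sub_cancel_right] at this
    exact le_trans (le_mul_of_one_le_left hρ.le hne) this

lemma exists_nearest {K : Set R3} (hK : Normal K) (z : R3) :
    ∃ q ∈ K, ∀ x ∈ K, ⟪z - q, x - q⟫ ≤ 0 := by
  obtain ⟨c, hc⟩ := hK.inner
  have hne : K.Nonempty := ⟨c, hc (mem_closedBall_self (by norm_num))⟩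
  obtain ⟨q, hq, hq'⟩ :=
    exists_norm_eq_iInf_of_complete_convex hne hK.compact.isComplete hK.convex z
  exact ⟨q, hq, (norm_eq_iInf_iff_real_inner_le_zero hK.convex hq).1 hq'⟩

lemma nearest_close {K : Set R3} {p m w z q : R3} {δ ρ : ℝ} (hp : p ∈ K) (hq : q ∈ K)
    (hq' : ∀ x ∈ K, ⟪z - q, x - q⟫ ≤ 0) (hm : ∀ x ∈ K, ⟪m, x - p⟫ ≤ δ)
    (hw : ‖w‖ ≤ ρ / 4) (hz : z = p + m + w) (hρ : 0 < ρ) (hδ : δ ≤ ρ ^ 2 / 64) :
    ‖p - q‖ < ρ / 2 := by
  have h1 : ‖p - q‖ ^ 2 = ⟪p - z, p - q⟫ + ⟪z - q, p - q⟫ := by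
    rw [← inner_add_left, sub_add_sub_cancel, real_inner_self_eq_norm_sq]
  have h2 : ⟪p - z, p - q⟫ = ⟪m, q - p⟫ + ⟪-w, p - q⟫ := by
    rw [← neg_sub p q, inner_neg_right, ← inner_neg_left, ← inner_add_left]
    congr 1; rw [hz]; abel
  have h3 : ⟪-w, p - q⟫ ≤ ρ / 4 * ‖p - q‖ := by
    refine (real_inner_le_norm _ _).trans ?_
    rw [norm_neg]; exact mul_le_mul_of_nonneg_right hw (norm_nonneg _)
  have := hq' p hp
  have := hm q hq
  by_contra hcon
  push Not at hcon
  nlinarith [mul_le_mul_of_nonneg_left hcon (norm_nonneg (p - q))]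

/-- The shell around K. -/
def shell (K : Set R3) (ρ : ℝ) : Set R3 := cthickening (1 + ρ) K \ cthickening (1 - ρ) K

lemma ball_sub_shell {K : Set R3} (hK : Normal K) {p m : R3} {δ ρ : ℝ} (hp : p ∈ K)
    (hm1 : ‖m‖ = 1) (hm : ∀ x ∈ K, ⟪m, x - p⟫ ≤ δ) (hρ : 0 < ρ) (hρ' : ρ ≤ 1)
    (hδ : δ ≤ ρ ^ 2 / 64) : ball (p + m) (ρ / 4) ⊆ shell K ρ := by
  intro z hz
  rw [mem_ball, dist_eq_norm] at hz
  refine ⟨mem_cthickening_of_dist_le z p _ K hp ?_, fun hcon => ?_⟩
  · rw [dist_eq_norm]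
    have := norm_add_le (z - (p + m)) m
    rw [show z - (p + m) + m = z - p by abel, hm1] at this
    linarith
  · rw [hK.compact.cthickening_eq_biUnion_closedBall (by linarith)] at hcon
    simp only [mem_iUnion, mem_closedBall, dist_eq_norm, exists_prop] at hcon
    obtain ⟨x, hx, hzx⟩ := hcon
    have h1 := real_inner_le_norm m (z - x)
    have h2 : ⟪m, z - x⟫ = ⟪m, z - (p + m)⟫ + ⟪m, m⟫ - ⟪m, x - p⟫ := by
      rw [← inner_add_right, ← inner_sub_right]; congr 1; abel
    have h3 := abs_le.1 (abs_real_inner_le_norm m (z - (p + m)))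
    rw [hm1, one_mul] at h1 h3
    rw [real_inner_self_eq_norm_sq, hm1] at h2
    have := hm x hx
    nlinarith

/-- Volume of the unit ball. -/
noncomputable def ballVol : ℝ := (volume (ball (0 : R3) 1)).toReal

lemma ballVol_pos : 0 < ballVol :=
  ENNReal.toReal_pos (measure_ball_pos volume _ one_pos).ne' measure_ball_lt_top.ne

lemma real_ball (x : R3) {r : ℝ} (hr : 0 < r) :
    (volume (ball x r)).toReal = r ^ 3 * ballVol := by
  rw [Measure.addHaar_ball_of_pos _ x hr, finrank_euclideanSpace_fin, ENNReal.toReal_mul,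
    ENNReal.toReal_ofReal (by positivity), ballVol]

lemma real_closedBall (x : R3) {r : ℝ} (hr : 0 ≤ r) :
    (volume (closedBall x r)).toReal = r ^ 3 * ballVol := by
  rw [Measure.addHaar_closedBall _ x hr, finrank_euclideanSpace_fin, ENNReal.toReal_mul,
    ENNReal.toReal_ofReal (by positivity), ballVol]

lemma shell_volume {K : Set R3} (hK : Normal K) {ρ : ℝ} (hρ : 0 < ρ) (hρ' : ρ ≤ 1 / 20) :
    (volume (shell K ρ)).toReal ≤ 3780 * ρ * ballVol := by
  obtain ⟨c, hc⟩ := hK.inner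
  set μ : ℝ := 20 * ρ with hμ
  set A := cthickening (1 - ρ) K with hA
  have hbig : cthickening (1 + ρ) K ⊆ AffineMap.homothety c (1 + μ) '' A := by
    rw [hK.compact.cthickening_eq_biUnion_closedBall (by linarith)]
    simp only [iUnion_subset_iff]
    intro k hk x hx
    rw [mem_closedBall, dist_eq_norm] at hx
    set y := c + (1 + μ)⁻¹ • (x - c) with hy
    refine ⟨y, ?_, ?_⟩
    · have hμp : (1 + μ) ≠ 0 := by positivity
      set u := c + ((1 / 10) / (1 + ρ)) • (x - k) with hu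
      have hu' : u ∈ K := hc (by
        rw [mem_closedBall, dist_eq_norm, hu, add_sub_cancel_left, norm_smul, Real.norm_eq_abs,
          abs_of_nonneg (by positivity), div_mul_eq_mul_div, div_le_iff₀ (by linarith)]
        nlinarith)
      have hk' := hK.convex hk hu' (show 0 ≤ 1 / (1 + μ) by positivity)
        (show 0 ≤ μ / (1 + μ) by positivity) (by rw [← add_div, div_self hμp])
      refine mem_cthickening_of_dist_le y _ _ K hk' ?_
      have e : y - ((1 / (1 + μ)) • k + (μ / (1 + μ)) • u) =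
          ((1 - μ * ((1 / 10) / (1 + ρ))) / (1 + μ)) • (x - k) := by
        rw [hy, hu]
        match_scalars <;> field_simp <;> ring_nf
      rw [dist_eq_norm, e, norm_smul, Real.norm_eq_abs]
      have e2 : (1 - μ * ((1 / 10) / (1 + ρ))) / (1 + μ) = (1 - ρ) / (1 + ρ) / (1 + μ) := by
        rw [hμ]; field_simp; ring
      rw [e2, abs_of_nonneg (div_nonneg (div_nonneg (by linarith) (by linarith)) (by positivity))]
      calc (1 - ρ) / (1 + ρ) / (1 + μ) * ‖x - k‖ ≤ (1 - ρ) / (1 + ρ) / 1 * (1 + ρ) := by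
            refine mul_le_mul ?_ hx (norm_nonneg _) ?_
            · exact div_le_div_of_nonneg_left (div_nonneg (by linarith) (by linarith)) one_pos
                (by rw [hμ]; linarith)
            · rw [div_one]; exact div_nonneg (by linarith) (by linarith)
        _ = _ := by field_simp
    · rw [AffineMap.homothety_apply, hy, vsub_eq_sub, vadd_eq_add, add_sub_cancel_left,
        smul_inv_smul₀ (by positivity), sub_add_cancel]
  have hA_sub : A ⊆ cthickening (1 + ρ) K := cthickening_mono (by linarith) _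
  have hfin : volume (cthickening (1 + ρ) K) ≠ ∞ :=
    hK.compact.cthickening.measure_ne_top
  have hfinA : volume A ≠ ∞ := hK.compact.cthickening.measure_ne_top
  have hA27 : (volume A).toReal ≤ 27 * ballVol := by
    have hs : A ⊆ closedBall 0 3 := by
      rw [hA, hK.compact.cthickening_eq_biUnion_closedBall (by linarith)]
      simp only [iUnion_subset_iff]
      intro k hk x hx
      have := hK.bound hk
      rw [mem_closedBall] at *
      linarith [dist_triangle x k 0]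
    calc (volume A).toReal ≤ (volume (closedBall (0 : R3) 3)).toReal :=
          ENNReal.toReal_mono measure_closedBall_lt_top.ne (measure_mono hs)
      _ = _ := by rw [real_closedBall _ (by norm_num)]; norm_num
  have h1 : (volume (cthickening (1 + ρ) K)).toReal ≤ (1 + μ) ^ 3 * (volume A).toReal := by
    have h := measure_mono (μ := volume) hbig
    rw [Measure.addHaar_image_homothety, finrank_euclideanSpace_fin,
      abs_of_pos (by positivity)] at h
    have := ENNReal.toReal_mono (ENNReal.mul_ne_top ENNReal.ofReal_ne_top hfinA) h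
    rwa [ENNReal.toReal_mul, ENNReal.toReal_ofReal (by positivity)] at this
  rw [shell, measure_sdiff hA_sub isClosed_cthickening.measurableSet.nullMeasurableSet hfinA,
    ENNReal.toReal_sub_of_le (measure_mono hA_sub) hfin]
  have h2 : (1 + μ) ^ 3 - 1 ≤ 140 * ρ := by
    have : ρ * ρ ≤ 1 / 20 * ρ := mul_le_mul_of_nonneg_right hρ' hρ.le
    have : ρ * ρ * ρ ≤ 1 / 20 * (1 / 20 * ρ) := by nlinarith
    rw [hμ]; nlinarith
  have := mul_le_mul h2 hA27 ENNReal.toReal_nonneg (by positivity)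
  nlinarith

/-- A separated family of ridge points has at most C/(θρ) elements. -/
lemma card_le {K : Set R3} (hK : Normal K) {δ θ ρ : ℝ} (hρ : 0 < ρ)
    (hρ' : ρ ≤ 1 / 20) (hδ0 : 0 ≤ δ) (hδ : δ ≤ ρ ^ 2 / 64) (F : Finset R3)
    (hF : ∀ p ∈ F, Ridge K δ θ p) (hsep : ∀ p ∈ F, ∀ q ∈ F, p ≠ q → ρ ≤ ‖p - q‖) :
    (F.card : ℝ) * θ * ρ ≤ 241920 := by
  classical
  choose m hm1 hm hmsep using fun p : F => ridge_normals (hF p p.2) hδ0 hρ
  let B : F × Fin ⌈θ / ρ⌉₊ → Set R3 := fun i => ball ((i.1 : R3) + m i.1 i.2) (ρ / 4)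
  have hdis : Pairwise (Function.onFun Disjoint B) := by
    rintro ⟨p, i⟩ ⟨p', i'⟩ hne
    rw [Function.onFun, Set.disjoint_left]
    intro z hz hz'
    simp only [B, mem_ball, dist_eq_norm] at hz hz'
    by_cases hpp : p = p'
    · subst hpp
      have hii : i ≠ i' := fun h => hne (by rw [h])
      have := hmsep p i i' hii
      have h3 := norm_sub_le (z - ((p : R3) + m p i')) (z - ((p : R3) + m p i))
      rw [show z - ((p : R3) + m p i') - (z - ((p : R3) + m p i)) = m p i - m p i' by abel] at h3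
      linarith
    · obtain ⟨q, hq, hq'⟩ := exists_nearest hK z
      have e : ∀ r : F, ∀ j, ‖z - ((r : R3) + m r j)‖ ≤ ρ / 4 → ‖(r : R3) - q‖ < ρ / 2 :=
        fun r j h => nearest_close (hF r r.2).1 hq hq' (hm r j) h (by abel) hρ hδ
      have h1 := e p i hz.le
      have h2 := e p' i' hz'.le
      have := hsep p p.2 p' p'.2 (fun h => hpp (Subtype.ext h))
      have h3 := norm_sub_le ((p : R3) - q) ((p' : R3) - q)
      rw [sub_sub_sub_cancel_right] at h3
      linarith
  have hsub : (⋃ i, B i) ⊆ shell K ρ := iUnion_subset fun i =>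
    ball_sub_shell hK (hF i.1 i.1.2).1 (hm1 _ _) (hm _ _) hρ (by linarith) hδ
  have h := measure_mono (μ := volume) hsub
  rw [measure_iUnion hdis fun _ => measurableSet_ball, tsum_fintype] at h
  have hfin : volume (shell K ρ) ≠ ∞ :=
    ne_top_of_le_ne_top hK.compact.cthickening.measure_ne_top (measure_mono sdiff_subset)
  have h' := (ENNReal.toReal_mono hfin h).trans (shell_volume hK hρ hρ')
  rw [ENNReal.toReal_sum fun i _ => measure_ball_lt_top.ne] at h'
  simp only [real_ball _ (by positivity : (0:ℝ) < ρ / 4), Finset.sum_const, Finset.card_univ,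
    Fintype.card_prod, Fintype.card_coe, Fintype.card_fin, nsmul_eq_mul, Nat.cast_mul] at h'
  have hM : θ / ρ ≤ (⌈θ / ρ⌉₊ : ℝ) := Nat.le_ceil _
  have hb := ballVol_pos
  have : (F.card : ℝ) * (θ / ρ) * ((ρ / 4) ^ 3 * ballVol) ≤ 3780 * ρ * ballVol :=
    le_trans (by gcongr) h'
  have e : (F.card : ℝ) * (θ / ρ) * ((ρ / 4) ^ 3 * ballVol) =
      (F.card : ℝ) * θ * ρ * (ρ * ballVol / 64) := by field_simp; ring
  rw [e] at this
  nlinarith [mul_pos hρ hb]

/-- An open set of volume O(ρ²) containing the ρ-ball around every ridge point. -/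
lemma exists_cut {K : Set R3} (hK : Normal K) {δ θ ρ : ℝ} (hθ : 0 < θ) (hρ : 0 < ρ)
    (hρ' : ρ ≤ 1 / 20) (hδ0 : 0 ≤ δ) (hδ : δ ≤ ρ ^ 2 / 64) :
    ∃ S : Set R3, IsOpen S ∧ (∀ p, Ridge K δ θ p → ball p ρ ⊆ S) ∧ volume S ≠ ∞ ∧
      (volume S).toReal ≤ 8 * ballVol * (241920 / θ) * ρ ^ 2 := by
  classical
  set Q : ℕ → Prop := fun n => ∃ F : Finset R3, F.card = n ∧ (∀ p ∈ F, Ridge K δ θ p) ∧
    ∀ p ∈ F, ∀ q ∈ F, p ≠ q → ρ ≤ ‖p - q‖ with hQ
  set N := ⌈241920 / (θ * ρ)⌉₊ with hN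
  have hbd : ∀ n, Q n → n ≤ N := fun n hn => by
    obtain ⟨F, rfl, h1, h2⟩ := hn
    have := card_le hK hρ hρ' hδ0 hδ F h1 h2
    exact_mod_cast (show (F.card : ℝ) ≤ N from le_trans
      (by rw [le_div_iff₀ (by positivity)]; linarith) (Nat.le_ceil _))
  obtain ⟨F, hFc, hF, hsep⟩ : Q (Nat.findGreatest Q N) :=
    Nat.findGreatest_spec (m := 0) (Nat.zero_le _) ⟨∅, rfl, by simp, by simp⟩
  have hmax : ∀ p, Ridge K δ θ p → ∃ q ∈ F, ‖p - q‖ < ρ := by
    intro p hp
    by_contra hno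
    push Not at hno
    have hpF : p ∉ F := fun h => by
      have := hno p h; rw [sub_self, norm_zero] at this; linarith
    have hQ1 : Q (F.card + 1) := by
      refine ⟨insert p F, Finset.card_insert_of_notMem hpF, ?_, ?_⟩
      · intro x hx; rcases Finset.mem_insert.1 hx with rfl | hx
        · exact hp
        · exact hF x hx
      · intro x hx y hy hne
        rcases Finset.mem_insert.1 hx with h | h <;> rcases Finset.mem_insert.1 hy with h' | h'
        · exact absurd (h.trans h'.symm) hne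
        · rw [h]; exact hno y h'
        · rw [h', norm_sub_rev]; exact hno x h
        · exact hsep x h y h' hne
    have := Nat.le_findGreatest (hbd _ hQ1) hQ1
    omega
  have hb : ∀ q ∈ F, volume (ball q (2 * ρ)) ≠ ∞ := fun q _ => measure_ball_lt_top.ne
  refine ⟨⋃ q ∈ F, ball q (2 * ρ), isOpen_biUnion fun _ _ => isOpen_ball, fun p hp => ?_, ?_, ?_⟩
  · obtain ⟨q, hq, hpq⟩ := hmax p hp
    refine subset_iUnion₂_of_subset q hq (ball_subset_ball' ?_)
    rw [dist_eq_norm]; linarith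
  · exact ne_top_of_le_ne_top (ENNReal.sum_ne_top.2 hb) (measure_biUnion_finset_le _ _)
  · refine (ENNReal.toReal_mono (ENNReal.sum_ne_top.2 hb) (measure_biUnion_finset_le _ _)).trans ?_
    rw [ENNReal.toReal_sum hb]
    simp only [real_ball _ (by positivity : (0:ℝ) < 2 * ρ), Finset.sum_const, nsmul_eq_mul]
    have h := card_le hK hρ hρ' hδ0 hδ F hF hsep
    have hc : (F.card : ℝ) ≤ 241920 / θ / ρ := by
      rw [div_div, le_div_iff₀ (by positivity)]; linarith
    have hb := ballVol_pos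
    calc (F.card : ℝ) * ((2 * ρ) ^ 3 * ballVol)
        ≤ 241920 / θ / ρ * ((2 * ρ) ^ 3 * ballVol) := by gcongr
      _ = _ := by field_simp; ring

end Vale.Agent.P243.Third
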