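import Mathlib

/-!
A convex body over its shadow, in coordinates (plane point, height): the cone bound
height * area <= 3 volume for every vertical chord, and a dichotomy: either the bound has a
definite gain, or an endpoint of the chord has two well separated approximate normals.
-/

namespace Vale.Agent.P243.Third

open Set MeasureTheory
open scoped ENNReal

/-- Plane point and height. -/
abbrev G3 := (ℝ × ℝ) × ℝ

/-- The set of (y, s) such that the vertical fibre of K over y has a chord of length s. -/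
def chords (K : Set G3) : Set G3 :=
  {q | 0 ≤ q.2 ∧ ∃ t, (q.1, t) ∈ K ∧ (q.1, t + q.2) ∈ K}

/-- Compact convex, inside the box of half side 2, containing a box of half side 1/20. -/
structure Boxed (K : Set G3) : Prop where
  compact : IsCompact K
  convex : Convex ℝ K
  bound : ∀ x ∈ K, |x.1.1| ≤ 2 ∧ |x.1.2| ≤ 2 ∧ |x.2| ≤ 2
  inner : ∃ c : G3, ∀ x : G3, |x.1.1 - c.1.1| ≤ 1 / 20 → |x.1.2 - c.1.2| ≤ 1 / 20 →
    |x.2 - c.2| ≤ 1 / 20 → x ∈ K

lemma comb_mem {K : Set G3} (hK : Convex ℝ K) {x y : G3} (hx : x ∈ K) (hy : y ∈ K) {a b : ℝ}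
    (ha : 0 ≤ a) (hb : 0 ≤ b) (hab : a + b = 1) :
    ((a • x.1 + b • y.1, a * x.2 + b * y.2) : G3) ∈ K :=
  hK hx hy ha hb hab

lemma chords_convex {K : Set G3} (hK : Convex ℝ K) : Convex ℝ (chords K) := by
  rintro x ⟨hx, t, h1, h2⟩ y ⟨hy, t', h3, h4⟩ a b ha hb hab
  refine ⟨add_nonneg (mul_nonneg ha hx) (mul_nonneg hb hy), a * t + b * t', ?_, ?_⟩
  · exact comb_mem hK h1 h3 ha hb hab
  · have := comb_mem hK h2 h4 ha hb hab
    convert this using 2
    · rfl
    · show a * t + b * t' + (a * x.2 + b * y.2) = a * (t + x.2) + b * (t' + y.2)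
      ring

lemma fibre_Icc {K : Set G3} (hK : IsCompact K) (hc : Convex ℝ K) (y : ℝ × ℝ) :
    Prod.mk y ⁻¹' K = ∅ ∨ ∃ a b, a ≤ b ∧ Prod.mk y ⁻¹' K = Icc a b := by
  rcases eq_empty_or_nonempty (Prod.mk y ⁻¹' K) with h | h
  · exact Or.inl h
  right
  have hcpt : IsCompact (Prod.mk y ⁻¹' K) :=
    IsCompact.of_isClosed_subset (hK.image continuous_snd)
      (hK.isClosed.preimage (Continuous.prodMk_right y)) fun t ht => ⟨(y, t), ht, rfl⟩
  have hcv : Convex ℝ (Prod.mk y ⁻¹' K) := by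
    intro s hs t ht a b ha hb hab
    have := comb_mem hc hs ht ha hb hab
    simp only [mem_preimage, smul_eq_mul]
    rwa [← add_smul, hab, one_smul] at this
  exact ⟨sInf _, sSup _, csInf_le_csSup h hcpt.bddBelow hcpt.bddAbove,
    eq_Icc_of_connected_compact ⟨h, hcv.isPreconnected⟩ hcpt⟩

lemma chords_fibre {K : Set G3} {y : ℝ × ℝ} {a b : ℝ} (hab : a ≤ b)
    (h : Prod.mk y ⁻¹' K = Icc a b) : Prod.mk y ⁻¹' chords K = Icc 0 (b - a) := by
  have hm : ∀ t, (y, t) ∈ K ↔ a ≤ t ∧ t ≤ b := fun t => by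
    rw [← mem_preimage (f := Prod.mk y), h]; rfl
  ext s
  simp only [chords, mem_preimage, mem_ofPred_eq, mem_Icc, hm]
  constructor
  · rintro ⟨hs, t, ht, ht'⟩; exact ⟨hs, by linarith [ht.1, ht'.2]⟩
  · rintro ⟨hs, hs'⟩; exact ⟨hs, a, ⟨le_rfl, hab⟩, ⟨by linarith, by linarith⟩⟩

lemma chords_compact {K : Set G3} (hK : IsCompact K) : IsCompact (chords K) := by
  have e : chords K =
      (fun p : G3 × G3 => ((p.1.1, p.2.2 - p.1.2) : G3)) ''
        ((K ×ˢ K) ∩ {p | p.1.1 = p.2.1 ∧ p.1.2 ≤ p.2.2}) := by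
    ext q
    constructor
    · rintro ⟨hq, t, h1, h2⟩
      exact ⟨((q.1, t), (q.1, t + q.2)), ⟨⟨h1, h2⟩, rfl, le_add_of_nonneg_right hq⟩, by simp⟩
    · rintro ⟨⟨⟨y, t⟩, ⟨y', t'⟩⟩, ⟨⟨h1, h2⟩, h3, h4⟩, rfl⟩
      simp only at h3 h4
      subst h3
      exact ⟨sub_nonneg.2 h4, t, h1, by simpa using h2⟩
  rw [e]
  have hcl : IsClosed {p : G3 × G3 | p.1.1 = p.2.1 ∧ p.1.2 ≤ p.2.2} :=
    (isClosed_eq (f := fun p : G3 × G3 => p.1.1) (by fun_prop) (by fun_prop)).inter
      (isClosed_le (f := fun p : G3 × G3 => p.1.2) (by fun_prop) (by fun_prop))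
  exact ((hK.prod hK).inter_right hcl).image (by fun_prop)

lemma volume_chords {K : Set G3} (hK : IsCompact K) (hc : Convex ℝ K) :
    volume (chords K) = volume K := by
  rw [Measure.volume_eq_prod, Measure.prod_apply (chords_compact hK).measurableSet,
    Measure.prod_apply hK.measurableSet]
  refine lintegral_congr fun y => ?_
  rcases fibre_Icc hK hc y with h | ⟨a, b, hab, h⟩
  · have : Prod.mk y ⁻¹' chords K = ∅ := by
      refine eq_empty_of_forall_notMem fun s hs => ?_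
      obtain ⟨-, t, ht, -⟩ := hs
      exact eq_empty_iff_forall_notMem.1 h t ht
    rw [h, this]
  · rw [chords_fibre hab h, h, Real.volume_Icc, Real.volume_Icc, sub_zero]

lemma homothety_area (P : Set (ℝ × ℝ)) (v : ℝ × ℝ) {k : ℝ} (hk : 0 ≤ k) :
    volume ((fun y => v + k • y) '' P) = ENNReal.ofReal (k ^ 2) * volume P := by
  have e : (fun y => v + k • y) '' P = (fun y => v + y) '' ((fun y => k • y) '' P) := by
    rw [image_image]
  rw [e, image_add_left, measure_preimage_add]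
  rw [show (fun y : ℝ × ℝ => k • y) '' P = AffineMap.homothety (0 : ℝ × ℝ) k '' P by
    refine image_congr fun y _ => ?_
    simp [AffineMap.homothety_apply], Measure.addHaar_image_homothety]
  rw [Module.finrank_prod, Module.finrank_self, abs_of_nonneg (pow_nonneg hk _)]

lemma lintegral_cone {h : ℝ} (hh : 0 < h) :
    ∫⁻ s in Ico 0 h, ENNReal.ofReal ((1 - s / h) ^ 2) = ENNReal.ofReal (h / 3) := by
  rw [setLIntegral_congr Ico_ae_eq_Icc, ← ofReal_integral_eq_lintegral_ofReal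
    ((by fun_prop : Continuous fun s : ℝ => (1 - s / h) ^ 2).continuousOn.integrableOn_compact
      isCompact_Icc) (ae_of_all _ fun s => sq_nonneg _)]
  congr 1
  rw [integral_Icc_eq_integral_Ioc, ← intervalIntegral.integral_of_le hh.le,
    intervalIntegral.integral_comp_sub_div (fun x : ℝ => x ^ 2) hh.ne' (1 : ℝ)]
  simp [integral_pow, hh.ne']
  ring

variable {K : Set G3} {y0 : ℝ × ℝ} {a h : ℝ}

/-- The shadow of K. -/
def shadow (K : Set G3) : Set (ℝ × ℝ) := Prod.fst '' K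

lemma shadow_compact (hB : Boxed K) : IsCompact (shadow K) := hB.compact.image continuous_fst

lemma zero_mem_chords {y : ℝ × ℝ} (hy : y ∈ shadow K) : ((y, 0) : G3) ∈ chords K := by
  obtain ⟨⟨y, t⟩, ht, rfl⟩ := hy
  exact ⟨le_rfl, t, ht, by simpa using ht⟩

lemma top_mem_chords (hh : 0 ≤ h) (h1 : (y0, a) ∈ K) (h2 : (y0, a + h) ∈ K) :
    ((y0, h) : G3) ∈ chords K := ⟨hh, a, h1, h2⟩

/-- The cone with vertex (y0, h) over the shadow. -/
def cone (K : Set G3) (y0 : ℝ × ℝ) (h : ℝ) : Set G3 :=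
  {q | q.2 ∈ Ico 0 h ∧ (1 - q.2 / h)⁻¹ • (q.1 - (q.2 / h) • y0) ∈ shadow K}

lemma volume_cone (hB : Boxed K) (hh : 0 < h) :
    MeasurableSet (cone K y0 h) ∧
      volume (cone K y0 h) = ENNReal.ofReal (h / 3) * volume (shadow K) := by
  have hm : MeasurableSet (cone K y0 h) :=
    (measurable_snd measurableSet_Ico).inter
      ((shadow_compact hB).measurableSet.preimage (by fun_prop))
  refine ⟨hm, ?_⟩
  rw [Measure.volume_eq_prod, Measure.prod_apply_symm hm, ← lintegral_cone hh,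
    ← lintegral_mul_const _ (by fun_prop), ← lintegral_indicator measurableSet_Ico]
  refine lintegral_congr fun s => ?_
  by_cases hs : s ∈ Ico 0 h
  · have hk : 0 < 1 - s / h := by rw [sub_pos, div_lt_one hh]; exact hs.2
    have e : (fun x => (x, s)) ⁻¹' cone K y0 h =
        (fun y => (s / h) • y0 + (1 - s / h) • y) '' shadow K := by
      ext y
      simp only [cone, mem_preimage, mem_ofPred_eq, hs, true_and, mem_image]
      constructor
      · exact fun hy => ⟨_, hy, by rw [smul_inv_smul₀ hk.ne']; abel⟩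
      · rintro ⟨w, hw, rfl⟩
        rwa [add_sub_cancel_left, inv_smul_smul₀ hk.ne']
    rw [indicator_of_mem hs, e]
    exact homothety_area _ _ hk.le
  · have e : (fun x => (x, s)) ⁻¹' cone K y0 h = ∅ :=
      eq_empty_of_forall_notMem fun y hy => hs hy.1
    rw [indicator_of_notMem hs, e, measure_empty]

lemma cone_sub (hB : Boxed K) (hh : 0 < h) (h1 : (y0, a) ∈ K) (h2 : (y0, a + h) ∈ K) :
    cone K y0 h ⊆ chords K := by
  rintro ⟨y, s⟩ ⟨hs, hy⟩
  have hk : 0 < 1 - s / h := by rw [sub_pos, div_lt_one hh]; exact hs.2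
  have := chords_convex hB.convex (zero_mem_chords hy) (top_mem_chords hh.le h1 h2) hk.le
    (div_nonneg hs.1 hh.le) (sub_add_cancel _ _)
  convert this using 1
  refine Prod.ext ?_ ?_
  · show y = _
    simp only [Prod.fst_add, Prod.smul_fst]
    rw [smul_inv_smul₀ hk.ne', sub_add_cancel]
  · show s = _
    simp only [Prod.snd_add, Prod.smul_snd, smul_eq_mul]
    field_simp; ring

/-- A vertical chord times the shadow is at most three times the volume. -/
lemma chord_mul_area (hB : Boxed K) (hh : 0 ≤ h) (h1 : (y0, a) ∈ K) (h2 : (y0, a + h) ∈ K) :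
    h / 3 * (volume (shadow K)).toReal ≤ (volume K).toReal := by
  rcases hh.eq_or_lt with rfl | hh'
  · simp
  have := ENNReal.toReal_mono (by rw [volume_chords hB.compact hB.convex]; exact hB.compact.measure_ne_top)
    (measure_mono (μ := volume) (cone_sub hB hh' h1 h2))
  rwa [(volume_cone hB hh').2, volume_chords hB.compact hB.convex, ENNReal.toReal_mul,
    ENNReal.toReal_ofReal (by positivity)] at this

lemma h_le (hB : Boxed K) (h1 : (y0, a) ∈ K) (h2 : (y0, a + h) ∈ K) : h ≤ 4 := by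
  have := (abs_le.1 (hB.bound _ h1).2.2)
  have := (abs_le.1 (hB.bound _ h2).2.2)
  dsimp only at *
  linarith

lemma diff_le (hB : Boxed K) {x y : G3} (hx : x ∈ K) (hy : y ∈ K) : |x.1.1 - y.1.1| ≤ 4 := by
  have := (abs_le.1 (hB.bound _ hx).1)
  have := (abs_le.1 (hB.bound _ hy).1)
  rw [abs_le]; constructor <;> linarith

/-- A chord above the affine bound gives a gain in volume. -/
lemma gain (hB : Boxed K) (hh : 0 < h) (h1 : (y0, a) ∈ K) (h2 : (y0, a + h) ∈ K)
    {σ δ : ℝ} (hσ : 0 ≤ σ) (hσ' : σ ≤ 1 / 8) (hδ : 0 < δ) (hδ' : δ ≤ 1) {q : G3}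
    (hq : q ∈ chords K) (hv : h * (1 - σ * (q.1.1 - y0.1)) + δ < q.2) :
    (h / 3 + δ / 2 * (δ / 40) ^ 2) * (volume (shadow K)).toReal ≤ (volume K).toReal := by
  set l := δ / 40 with hl
  set R : ℝ × ℝ → ℝ := fun y => h * (1 - σ * (y.1 - y0.1)) with hR
  set Q : Set (ℝ × ℝ) := (fun y => (1 - l) • q.1 + l • y) '' shadow K with hQ
  set C : Set G3 := {p | p.1 ∈ Q ∧ R p.1 < p.2 ∧ p.2 ≤ R p.1 + δ / 2} with hC
  have hh4 := h_le hB h1 h2
  have hQc : IsCompact Q := (shadow_compact hB).image (by fun_prop)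
  have hCm : MeasurableSet C :=
    (measurable_fst hQc.measurableSet).inter
      ((measurableSet_lt (by fun_prop) measurable_snd).inter
        (measurableSet_le measurable_snd (by fun_prop)))
  have hσz : ∀ y ∈ shadow K, |σ * (y.1 - y0.1)| ≤ 1 / 2 := by
    rintro _ ⟨x, hx, rfl⟩
    rw [abs_mul, abs_of_nonneg hσ]
    have := diff_le hB hx h1
    calc σ * |x.1.1 - y0.1| ≤ (1 / 8) * 4 := by gcongr
      _ = _ := by norm_num
  have hCs : C ⊆ chords K := by
    rintro ⟨y, s⟩ ⟨hy, hs1, hs2⟩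
    obtain ⟨w, hw, rfl⟩ := hy
    have hl0 : 0 ≤ l := by positivity
    have hl1 : l ≤ 1 := by rw [hl]; linarith
    have hcc := chords_convex hB.convex hq (zero_mem_chords hw) (sub_nonneg.2 hl1) hl0
      (sub_add_cancel _ _)
    obtain ⟨-, t, ht1, ht2⟩ := hcc
    simp only [Prod.fst_add, Prod.smul_fst, Prod.snd_add, Prod.smul_snd, smul_eq_mul, mul_zero,
      add_zero] at ht1 ht2
    have hlow : R ((1 - l) • q.1 + l • w) + δ / 2 ≤ (1 - l) * q.2 := by
      have hw' := abs_le.1 (hσz w hw)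
      have := mul_le_mul_of_nonneg_left hv.le (sub_nonneg.2 hl1)
      simp only [hR, Prod.fst_add, Prod.smul_fst, smul_eq_mul]
      have e2 : l * (h * (1 - σ * (w.1 - y0.1))) ≤ l * (4 * (3 / 2)) := by
        refine mul_le_mul_of_nonneg_left ?_ hl0
        exact mul_le_mul hh4 (by linarith) (by linarith) (by norm_num)
      have e3 : l * δ ≤ l * 1 := mul_le_mul_of_nonneg_left hδ' hl0
      rw [hl] at *
      nlinarith
    have hs0 : 0 ≤ s := by
      have hp : ∀ y ∈ shadow K, 0 ≤ R y := fun y hy =>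
        mul_nonneg hh.le (by linarith [(abs_le.1 (hσz y hy)).2])
      have := hp _ ⟨_, ht1, rfl⟩
      dsimp only at hs1; linarith
    refine ⟨hs0, t, ht1, ?_⟩
    dsimp only at hs1 hs2 ⊢
    rcases eq_or_lt_of_le (le_trans hs0 (hs2.trans hlow) : (0:ℝ) ≤ (1 - l) * q.2) with h0 | h0
    · rw [show s = (1 - l) * q.2 by linarith]; exact ht2
    · have hk : s / ((1 - l) * q.2) ≤ 1 := by rw [div_le_one h0]; linarith
      have := comb_mem hB.convex ht1 ht2 (sub_nonneg.2 hk) (div_nonneg hs0 h0.le)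
        (sub_add_cancel _ _)
      convert this using 1
      refine Prod.ext ?_ ?_
      · show _ = (1 - s / ((1 - l) * q.2)) • _ + _
        rw [← add_smul, sub_add_cancel, one_smul]
      · show t + s = _
        simp only
        have e : s = s / ((1 - l) * q.2) * ((1 - l) * q.2) := (div_mul_cancel₀ _ h0.ne').symm
        linear_combination e
  have hd : Disjoint (cone K y0 h) C := by
    rw [Set.disjoint_left]
    rintro ⟨y, s⟩ ⟨hs, hy⟩ ⟨-, hs1, -⟩
    have hk : 0 < 1 - s / h := by rw [sub_pos, div_lt_one hh]; exact hs.2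
    set w := (1 - s / h)⁻¹ • (y - (s / h) • y0) with hw
    have hyw : y = (s / h) • y0 + (1 - s / h) • w := by
      rw [hw, smul_inv_smul₀ hk.ne']; abel
    have := (abs_le.1 (hσz w hy)).2
    dsimp only at hs1
    rw [hyw] at hs1
    simp only [hR, Prod.fst_add, Prod.smul_fst, smul_eq_mul] at hs1
    have e : s = h * (s / h) := by field_simp
    nlinarith [mul_nonneg (mul_nonneg hh.le hk.le) (by linarith : (0:ℝ) ≤ 1 - σ * (w.1 - y0.1))]
  have hvC : volume C = ENNReal.ofReal (δ / 2 * l ^ 2) * volume (shadow K) := by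
    rw [Measure.volume_eq_prod, Measure.prod_apply hCm]
    have e : ∀ y, volume (Prod.mk y ⁻¹' C) = Q.indicator (fun _ => ENNReal.ofReal (δ / 2)) y := by
      intro y
      by_cases hy : y ∈ Q
      · rw [indicator_of_mem hy, show Prod.mk y ⁻¹' C = Ioc (R y) (R y + δ / 2) by
          ext s; simp [hC, hy], Real.volume_Ioc, add_sub_cancel_left]
      · rw [indicator_of_notMem hy, show Prod.mk y ⁻¹' C = ∅ by ext s; simp [hC, hy],
          measure_empty]
    rw [lintegral_congr e, lintegral_indicator_const hQc.measurableSet]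
    show ENNReal.ofReal (δ / 2) * volume Q = _
    rw [hQ, homothety_area _ _ (by positivity), ← mul_assoc,
      ← ENNReal.ofReal_mul (by positivity)]
  have hle : volume (cone K y0 h) + volume C ≤ volume K := by
    rw [← measure_union hd hCm, ← volume_chords hB.compact hB.convex]
    exact measure_mono (union_subset (cone_sub hB hh h1 h2) hCs)
  have := ENNReal.toReal_mono hB.compact.measure_ne_top hle
  rw [(volume_cone hB hh).2, hvC, ← add_mul, ← ENNReal.ofReal_add (by positivity) (by positivity),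
    ENNReal.toReal_mul, ENNReal.toReal_ofReal (by positivity)] at this
  exact this

/-- Two approximate normals, with last coordinate k, at the point p. -/
def TwoNormals (K : Set G3) (p : G3) (δ d : ℝ) : Prop :=
  ∃ k A₀ A₁ B₀ B₁ : ℝ, (k = 1 ∨ k = -1) ∧ |A₀| ≤ 101 ∧ |A₁| ≤ 101 ∧ |B₀| ≤ 101 ∧ |B₁| ≤ 101 ∧
    d ≤ |A₁ - A₀| ∧
    (∀ x ∈ K, A₀ * (x.1.1 - p.1.1) + B₀ * (x.1.2 - p.1.2) + k * (x.2 - p.2) ≤ δ) ∧
    ∀ x ∈ K, A₁ * (x.1.1 - p.1.1) + B₁ * (x.1.2 - p.1.2) + k * (x.2 - p.2) ≤ δ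

/-- An affine function between the top and the shifted bottom. -/
lemma sandwich (hB : Boxed K) (hh : 0 ≤ h) (h1 : (y0, a) ∈ K) (h2 : (y0, a + h) ∈ K)
    {σ δ : ℝ} (hσ : 0 ≤ σ) (hσ' : σ ≤ 1 / 8) (hδ : 0 < δ) (hδ' : δ ≤ 1)
    (hno : ∀ q ∈ chords K, q.2 ≤ h * (1 - σ * (q.1.1 - y0.1)) + δ) :
    ∃ A B : ℝ, |A| ≤ 100 ∧ |B| ≤ 100 ∧
      (∀ x ∈ K, A * (x.1.1 - y0.1) + B * (x.1.2 - y0.2) + (x.2 - (a + h)) ≤ 2 * δ) ∧
      ∀ x ∈ K, -((A - h * σ) * (x.1.1 - y0.1) + B * (x.1.2 - y0.2) + (x.2 - a)) ≤ 2 * δ := by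
  set S : G3 → G3 := fun x => (x.1, x.2 + (h * (1 - σ * (x.1.1 - y0.1)) + 2 * δ)) with hS
  have hconv : Convex ℝ (S '' K) := by
    rintro _ ⟨x, hx, rfl⟩ _ ⟨y, hy, rfl⟩ r s hr hs hrs
    refine ⟨r • x + s • y, hB.convex hx hy hr hs hrs, ?_⟩
    refine Prod.ext rfl ?_
    simp only [hS, Prod.fst_add, Prod.snd_add, Prod.smul_fst, Prod.smul_snd, smul_eq_mul]
    linear_combination (-(2 * δ) - h - h * σ * y0.1) * hrs
  have hdis : Disjoint K (S '' K) := by
    rw [Set.disjoint_right]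
    rintro _ ⟨⟨y, t⟩, hx, rfl⟩ hmem
    simp only [hS] at hmem
    set s := h * (1 - σ * (y.1 - y0.1)) + 2 * δ with hs
    have hs0 : 0 ≤ s := by
      have := diff_le hB hx h1
      have hb : σ * (y.1 - y0.1) ≤ 1 / 8 * 4 :=
        calc σ * (y.1 - y0.1) ≤ σ * 4 := mul_le_mul_of_nonneg_left (abs_le.1 this).2 hσ
          _ ≤ 1 / 8 * 4 := by linarith
      nlinarith
    have := hno ((y, s) : G3) ⟨hs0, t, hx, hmem⟩
    dsimp only at this; linarith
  obtain ⟨f, s, t, hf1, hst, hf2⟩ := geometric_hahn_banach_compact_closed hB.convex hB.compact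
    hconv (hB.compact.image (by fun_prop)).isClosed hdis
  set g1 := f ((1, 0), 0)
  set g2 := f ((0, 1), 0)
  set k := f ((0, 0), 1)
  have hf : ∀ x : G3, f x = g1 * x.1.1 + g2 * x.1.2 + k * x.2 := fun x => by
    have e : x = x.1.1 • (((1, 0), 0) : G3) + x.1.2 • (((0, 1), 0) : G3)
        + x.2 • (((0, 0), 1) : G3) := by
      refine Prod.ext (Prod.ext ?_ ?_) ?_ <;> simp
    conv_lhs => rw [e]
    simp only [map_add, map_smul, smul_eq_mul]; ring
  have hlt : ∀ x ∈ K, ∀ y ∈ K, f x < f (S y) := fun x hx y hy =>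
    (hf1 x hx).trans (hst.trans (hf2 _ ⟨y, hy, rfl⟩))
  have hT := hlt _ h2 _ h1
  simp only [hS, hf] at hT
  have hk : 0 < k := by
    by_contra hk; push Not at hk; nlinarith
  have hup : ∀ x ∈ K, g1 / k * (x.1.1 - y0.1) + g2 / k * (x.1.2 - y0.2) + (x.2 - (a + h))
      ≤ 2 * δ := fun x hx => by
    have := hlt _ hx _ h1
    simp only [hS, hf] at this
    have e : g1 / k * (x.1.1 - y0.1) + g2 / k * (x.1.2 - y0.2) + (x.2 - (a + h)) =
        (g1 * (x.1.1 - y0.1) + g2 * (x.1.2 - y0.2) + k * (x.2 - (a + h))) / k := by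
      field_simp
    rw [e, div_le_iff₀ hk]; nlinarith
  have hlo : ∀ x ∈ K, -((g1 / k - h * σ) * (x.1.1 - y0.1) + g2 / k * (x.1.2 - y0.2) + (x.2 - a))
      ≤ 2 * δ := fun x hx => by
    have := hlt _ h2 _ hx
    simp only [hS, hf] at this
    have e : -((g1 / k - h * σ) * (x.1.1 - y0.1) + g2 / k * (x.1.2 - y0.2) + (x.2 - a)) =
        -((g1 - k * (h * σ)) * (x.1.1 - y0.1) + g2 * (x.1.2 - y0.2) + k * (x.2 - a)) / k := by
      field_simp
    rw [e, div_le_iff₀ hk]; nlinarith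
  refine ⟨g1 / k, g2 / k, ?_, ?_, hup, hlo⟩
  all_goals
    have hh4 := h_le hB h1 h2
    obtain ⟨c, hc⟩ := hB.inner
  · have hm : ∀ d : ℝ, |d| ≤ 1 / 20 → (((c.1.1 + d, c.1.2), c.2) : G3) ∈ K := fun d hd =>
      hc _ (by simpa using hd) (by norm_num) (by norm_num)
    have b1 := fun d hd => abs_le.1 (diff_le hB (hm d hd) h1)
    have u1 := hup _ (hm (1 / 20) (by norm_num))
    have u2 := hup _ (hm (-(1 / 20)) (by norm_num))
    have l1 := hlo _ (hm (1 / 20) (by norm_num))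
    have l2 := hlo _ (hm (-(1 / 20)) (by norm_num))
    have p1 := b1 (1 / 20) (by norm_num)
    have p2 := b1 (-(1 / 20)) (by norm_num)
    dsimp only at u1 u2 l1 l2 p1 p2
    have hhs : 0 ≤ h * σ := mul_nonneg hh hσ
    have hhs' : h * σ ≤ 1 / 2 := by nlinarith
    rw [abs_le]
    constructor <;> nlinarith
  · have hm : ∀ d : ℝ, |d| ≤ 1 / 20 → (((c.1.1, c.1.2 + d), c.2) : G3) ∈ K := fun d hd =>
      hc _ (by norm_num) (by simpa using hd) (by norm_num)
    have b1 := fun d hd => abs_le.1 (diff_le hB (hm d hd) h1)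
    have u1 := hup _ (hm (1 / 20) (by norm_num))
    have u2 := hup _ (hm (-(1 / 20)) (by norm_num))
    have l1 := hlo _ (hm (1 / 20) (by norm_num))
    have l2 := hlo _ (hm (-(1 / 20)) (by norm_num))
    have p1 := b1 (1 / 20) (by norm_num)
    dsimp only at u1 u2 l1 l2 p1
    have hhs : 0 ≤ h * σ := mul_nonneg hh hσ
    have hhs' : h * σ ≤ 1 / 2 := by nlinarith
    rw [abs_le]
    constructor <;> nlinarith

/-- Either a definite gain, or an endpoint of the chord has two separated normals. -/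
lemma dichotomy (hB : Boxed K) (hh : 0 < h) (h1 : (y0, a) ∈ K) (h2 : (y0, a + h) ∈ K)
    {δ : ℝ} (hδ : 0 < δ) (hδ' : δ ≤ 1) :
    (h / 3 + δ / 2 * (δ / 40) ^ 2) * (volume (shadow K)).toReal ≤ (volume K).toReal ∨
      TwoNormals K (y0, a) (2 * δ) (h / 16) ∨ TwoNormals K (y0, a + h) (2 * δ) (h / 16) := by
  by_cases hg : ∃ σ ∈ ({0, 1 / 8} : Set ℝ), ∃ q ∈ chords K,
      h * (1 - σ * (q.1.1 - y0.1)) + δ < q.2
  · obtain ⟨σ, hσ, q, hq, hv⟩ := hg
    refine Or.inl (gain hB hh h1 h2 ?_ ?_ hδ hδ' hq hv) <;>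
      rcases hσ with rfl | rfl <;> norm_num
  push Not at hg
  obtain ⟨A, B, hA, hB', hu, hl⟩ := sandwich hB hh.le h1 h2 le_rfl (by norm_num) hδ hδ'
    (hg 0 (by simp))
  obtain ⟨A', B'', hA', hB'', hu', hl'⟩ := sandwich hB hh.le h1 h2 (σ := 1 / 8) (by norm_num) le_rfl
    hδ hδ' (hg (1 / 8) (by simp))
  right
  have hh4 := h_le hB h1 h2
  by_cases hd : h / 16 ≤ |A' - A|
  · exact Or.inr ⟨1, A, A', B, B'', Or.inl rfl, by linarith, by linarith, by linarith, by linarith,
      hd, fun x hx => by simpa using hu x hx, fun x hx => by simpa using hu' x hx⟩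
  · refine Or.inl ⟨-1, -A, -(A' - h * (1 / 8)), -B, -B'', Or.inr rfl, by rw [abs_neg]; linarith,
      ?_, by rw [abs_neg]; linarith, by rw [abs_neg]; linarith, ?_, ?_, ?_⟩
    · rw [abs_neg]; have := abs_le.1 hA'; rw [abs_le]; constructor <;> linarith
    · push Not at hd
      have := (abs_lt.1 hd)
      rw [show -(A' - h * (1 / 8)) - -A = h * (1 / 8) - (A' - A) by ring]
      exact le_trans (by linarith) (le_abs_self _)
    · intro x hx; have := hl x hx; dsimp only; linarith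
    · intro x hx; have := hl' x hx; dsimp only; linarith

end Vale.Agent.P243.Third
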