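import Vale.Agent.P243.Main
import Vale.Agent.P243.Third.Profile
import Vale.Agent.P243.Third.Pack

/-!
For a body in normal position a small change of the uniform weight makes every line carry less
than three times the volume divided by the shadow area.
-/

namespace Vale.Agent.P243.Third

open Set MeasureTheory Metric
open scoped RealInnerProductSpace ENNReal

/-- The length of the part of a set on the line x + t u, in the parameter t. -/
noncomputable def len (A : Set R3) (x u : R3) : ℝ :=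
  (volume ((fun t : ℝ => x + t • u) ⁻¹' A)).toReal

/-- Weighted chords times shadows are at most (3 - τ) times the weighted volume. -/
def Improved (τ : ℝ) (K : Set R3) : Prop :=
  ∃ K₀ : Set R3, MeasurableSet K₀ ∧ K₀ ⊆ K ∧ ∃ l : ℝ, 0 ≤ l ∧ l ≤ 1 / 2 ∧
    ∀ u x : R3, ‖u‖ = 1 →
      ((1 - l) * len K x u + l * len K₀ x u) * (shadowArea u K).toReal ≤
        (3 - τ) * ((1 - l) * (volume K).toReal + l * (volume K₀).toReal)

lemma frame {u : R3} (hu : ‖u‖ = 1) :
    ∃ e n : R3, ∃ ψ : R3 ≃ₜ G3, ‖e‖ = 1 ∧ ‖n‖ = 1 ∧ ⟪e, n⟫ = 0 ∧ ⟪e, u⟫ = 0 ∧ ⟪n, u⟫ = 0 ∧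
      MeasurePreserving ψ ∧ ∀ x, ψ x = ((⟪e, x⟫, ⟪n, x⟫), ⟪u, x⟫) := by
  have hd : Module.finrank ℝ R3 = 3 := finrank_euclideanSpace_fin
  obtain ⟨e, he, hue, -⟩ := exists_unit_orth hd u u
  obtain ⟨n, hn, hun, hen⟩ := exists_unit_orth hd u e
  let v : Fin 3 → R3 := ![u, e, n]
  have hv : Orthonormal ℝ v := by
    constructor
    · intro i; fin_cases i <;> simp [v, hu, he, hn]
    · intro i j hij
      fin_cases i <;> fin_cases j <;>
        first
        | (exact absurd rfl hij)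
        | simp [v, hue, hun, hen, real_inner_comm u e, real_inner_comm u n, real_inner_comm e n]
  let b : OrthonormalBasis (Fin 3) ℝ R3 :=
    OrthonormalBasis.mk hv (by
      rw [hv.linearIndependent.span_eq_top_of_card_eq_finrank (by simp)])
  let T : (Fin 3 → ℝ) ≃ₜ G3 :=
    { toFun := fun a => ((a 1, a 2), a 0)
      invFun := fun q => ![q.2, q.1.1, q.1.2]
      left_inv := fun a => by funext i; fin_cases i <;> rfl
      right_inv := fun q => rfl
      continuous_toFun := by fun_prop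
      continuous_invFun := by fun_prop }
  have hT : MeasurePreserving T := by
    have h1 := volume_preserving_piFinSuccAbove (fun _ : Fin 3 => ℝ) 0
    have h2 : MeasurePreserving (MeasurableEquiv.piFinTwo fun _ : Fin 2 => ℝ) :=
      volume_preserving_piFinTwo fun _ : Fin 2 => ℝ
    have h3 := (Measure.measurePreserving_swap (μ := (volume : Measure ℝ))
      (ν := (volume : Measure (ℝ × ℝ)))).comp (((MeasurePreserving.id volume).prod h2).comp h1)
    exact h3
  let ψ : R3 ≃ₜ G3 := b.repr.toHomeomorph.trans ((PiLp.homeomorph 2 (fun _ : Fin 3 => ℝ)).trans T)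
  refine ⟨e, n, ψ, he, hn, hen, (real_inner_comm u e).trans hue, (real_inner_comm u n).trans hun,
    hT.comp ((PiLp.volume_preserving_ofLp (Fin 3)).comp b.measurePreserving_repr), fun x => ?_⟩
  refine Prod.ext (Prod.ext ?_ ?_) ?_
  · show b.repr x 1 = _; rw [b.repr_apply_apply]; simp [b, v]
  · show b.repr x 2 = _; rw [b.repr_apply_apply]; simp [b, v]
  · show b.repr x 0 = _; rw [b.repr_apply_apply]; simp [b, v]

variable {e n u : R3} {ψ : R3 ≃ₜ G3}

lemma coord_boxed {K : Set R3} (hK : Normal K) (he : ‖e‖ = 1) (hn : ‖n‖ = 1) (hu : ‖u‖ = 1)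
    (hen : ⟪e, n⟫ = 0) (heu : ⟪e, u⟫ = 0) (hnu : ⟪n, u⟫ = 0)
    (hψ : ∀ x, ψ x = ((⟪e, x⟫, ⟪n, x⟫), ⟪u, x⟫)) : Boxed (ψ '' K) := by
  refine ⟨hK.compact.image ψ.continuous, ?_, ?_, ?_⟩
  · have : ψ '' K = ((pr e n).prod (innerSL ℝ u)) '' K := image_congr fun x _ => hψ x
    rw [this]; exact hK.convex.linear_image ((pr e n).prod (innerSL ℝ u)).toLinearMap
  · rintro _ ⟨x, hx, rfl⟩
    have := hK.bound hx
    rw [mem_closedBall, dist_zero_right] at this
    rw [hψ]
    have a := abs_real_inner_le_norm e x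
    have b := abs_real_inner_le_norm n x
    have c := abs_real_inner_le_norm u x
    rw [he, one_mul] at a; rw [hn, one_mul] at b; rw [hu, one_mul] at c
    exact ⟨a.trans this, b.trans this, c.trans this⟩
  · obtain ⟨c, hc⟩ := hK.inner
    refine ⟨ψ c, fun z h1 h2 h3 => ?_⟩
    obtain ⟨x, rfl⟩ := ψ.surjective z
    refine ⟨x, hc ?_, rfl⟩
    simp only [hψ, ← inner_sub_right] at h1 h2 h3
    set d := x - c with hd
    have hdec : d = ⟪e, d⟫ • e + ⟪n, d⟫ • n + ⟪u, d⟫ • u := by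
      apply ψ.injective
      simp only [hψ, inner_add_right, inner_smul_right, hen, heu, hnu,
        real_inner_comm e n, real_inner_comm e u, real_inner_comm n u,
        real_inner_self_eq_norm_sq, he, hn, hu]
      simp
    rw [mem_closedBall, dist_eq_norm, ← hd]
    have hsq : ‖d‖ ^ 2 = ⟪e, d⟫ ^ 2 + ⟪n, d⟫ ^ 2 + ⟪u, d⟫ ^ 2 := by
      rw [← real_inner_self_eq_norm_sq]
      nth_rewrite 1 [hdec]
      simp only [inner_add_left, real_inner_smul_left]; ring
    have := sq_le_sq' (abs_le.1 h1).1 (abs_le.1 h1).2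
    have := sq_le_sq' (abs_le.1 h2).1 (abs_le.1 h2).2
    have := sq_le_sq' (abs_le.1 h3).1 (abs_le.1 h3).2
    nlinarith [norm_nonneg d]

lemma shadow_eq {K : Set R3} (he : ‖e‖ = 1) (hn : ‖n‖ = 1) (hu : ‖u‖ = 1)
    (hen : ⟪e, n⟫ = 0) (heu : ⟪e, u⟫ = 0) (hnu : ⟪n, u⟫ = 0)
    (hψ : ∀ x, ψ x = ((⟪e, x⟫, ⟪n, x⟫), ⟪u, x⟫)) :
    volume (shadow (ψ '' K)) = shadowArea u K := by
  rw [shadow, image_image, shadowArea, projArea, area, orthPlane]
  rw [show (fun x => (ψ x).1) '' K = pr e n '' K from image_congr fun x _ => by rw [hψ]; rfl]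
  exact (proj_area (finrank_euclideanSpace_fin) (norm_ne_zero_iff.1 (by rw [hu]; norm_num)) he hn
    hen heu hnu K).symm

lemma shadow_bounds {L : Set G3} (hB : Boxed L) :
    1 / 100 ≤ (volume (shadow L)).toReal ∧ (volume (shadow L)).toReal ≤ 16 := by
  obtain ⟨c, hc⟩ := hB.inner
  have hfin : volume (shadow L) ≠ ∞ := (shadow_compact hB).measure_ne_top
  constructor
  · have hs : Icc (c.1.1 - 1 / 20) (c.1.1 + 1 / 20) ×ˢ Icc (c.1.2 - 1 / 20) (c.1.2 + 1 / 20)
        ⊆ shadow L := by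
      rintro y ⟨h1, h2⟩
      refine ⟨(y, c.2), hc _ ?_ ?_ (by norm_num), rfl⟩
      · rw [abs_le]; constructor <;> linarith [h1.1, h1.2]
      · rw [abs_le]; constructor <;> linarith [h2.1, h2.2]
    have := ENNReal.toReal_mono hfin (measure_mono (μ := volume) hs)
    rw [Measure.volume_eq_prod, Measure.prod_prod, Real.volume_Icc, Real.volume_Icc,
      ENNReal.toReal_mul, ENNReal.toReal_ofReal (by linarith),
      ENNReal.toReal_ofReal (by linarith)] at this
    rw [Measure.volume_eq_prod]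
    linarith
  · have hs : shadow L ⊆ Icc (-2 : ℝ) 2 ×ˢ Icc (-2 : ℝ) 2 := by
      rintro _ ⟨x, hx, rfl⟩
      exact ⟨abs_le.1 (hB.bound x hx).1, abs_le.1 (hB.bound x hx).2.1⟩
    rw [Measure.volume_eq_prod]
    have := ENNReal.toReal_mono (isCompact_Icc.prod isCompact_Icc).measure_ne_top
      (measure_mono (μ := (volume : Measure ℝ).prod volume) hs)
    rw [Measure.prod_prod, Real.volume_Icc, ENNReal.toReal_mul,
      ENNReal.toReal_ofReal (by norm_num)] at this
    linarith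

lemma volume_bounds {K : Set R3} (hK : Normal K) :
    ballVol / 1000 ≤ (volume K).toReal ∧ (volume K).toReal ≤ 8 * ballVol := by
  obtain ⟨c, hc⟩ := hK.inner
  have h1 := ENNReal.toReal_mono hK.compact.measure_ne_top (measure_mono (μ := volume) hc)
  have h2 := ENNReal.toReal_mono measure_closedBall_lt_top.ne (measure_mono (μ := volume) hK.bound)
  rw [real_closedBall _ (by norm_num)] at h1 h2
  constructor <;> linarith

lemma ridge_of_two {K : Set R3} (he : ‖e‖ = 1) (hn : ‖n‖ = 1) (hu : ‖u‖ = 1)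
    (heu : ⟪e, u⟫ = 0) (hen : ⟪e, n⟫ = 0) (hnu : ⟪n, u⟫ = 0)
    (hψ : ∀ x, ψ x = ((⟪e, x⟫, ⟪n, x⟫), ⟪u, x⟫))
    {p : R3} (hp : p ∈ K) {δ d : ℝ} (hT : TwoNormals (ψ '' K) (ψ p) δ d) :
    Ridge K δ (d / 10000000) p := by
  obtain ⟨k, A₀, A₁, B₀, B₁, hk, hA₀, hA₁, hB₀, hB₁, hd, h0, h1⟩ := hT
  have hk1 : |k| = 1 := by rcases hk with rfl | rfl <;> norm_num
  set N₀ := A₀ • e + B₀ • n + k • u with hN₀
  set N₁ := A₁ • e + B₁ • n + k • u with hN₁
  have hdot : ∀ A B : ℝ, ∀ x ∈ K, ⟪A • e + B • n + k • u, x - p⟫ =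
      A * ((ψ x).1.1 - (ψ p).1.1) + B * ((ψ x).1.2 - (ψ p).1.2) + k * ((ψ x).2 - (ψ p).2) := by
    intro A B x _
    simp only [inner_add_left, real_inner_smul_left, inner_sub_right, hψ]; ring
  have huN : ∀ A B : ℝ, ⟪u, A • e + B • n + k • u⟫ = k := fun A B => by
    simp [inner_add_right, inner_smul_right, real_inner_comm e u, real_inner_comm n u, heu, hnu,
      hu]
  have heN : ∀ A B : ℝ, ⟪e, A • e + B • n + k • u⟫ = A := fun A B => by
    simp [inner_add_right, inner_smul_right, heu, hen, he]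
  have hlo : ∀ A B : ℝ, 1 ≤ ‖A • e + B • n + k • u‖ := fun A B => by
    have := abs_real_inner_le_norm u (A • e + B • n + k • u)
    rwa [huN, hk1, hu, one_mul] at this
  refine ⟨hp, N₀, N₁, fun s _ => ?_, fun x hx => ?_, fun x hx => ?_, ?_⟩
  · have e' : (1 - s) • N₀ + s • N₁ =
        ((1 - s) * A₀ + s * A₁) • e + ((1 - s) * B₀ + s * B₁) • n + k • u := by
      rw [hN₀, hN₁]; module
    rw [e']; exact hlo _ _
  · rw [hN₀, hdot _ _ x hx]; exact h0 _ (mem_image_of_mem ψ hx)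
  · rw [hN₁, hdot _ _ x hx]; exact h1 _ (mem_image_of_mem ψ hx)
  · set D := ‖‖N₁‖⁻¹ • N₁ - ‖N₀‖⁻¹ • N₀‖ with hD
    have hup : ∀ A B : ℝ, |A| ≤ 101 → |B| ≤ 101 → ‖A • e + B • n + k • u‖ ≤ 203 := by
      intro A B hA hB
      refine (norm_add₃_le).trans ?_
      simp only [norm_smul, Real.norm_eq_abs, he, hn, hu, hk1]
      linarith
    have n0 := hlo A₀ B₀; have n1 := hlo A₁ B₁
    have u0 := hup A₀ B₀ hA₀ hB₀; have u1 := hup A₁ B₁ hA₁ hB₁
    have e1 : ∀ w : R3, ‖w‖ = 1 → |⟪w, ‖N₁‖⁻¹ • N₁ - ‖N₀‖⁻¹ • N₀⟫| ≤ D := fun w hw => by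
      have := abs_real_inner_le_norm w (‖N₁‖⁻¹ • N₁ - ‖N₀‖⁻¹ • N₀)
      rwa [hw, one_mul] at this
    have du := e1 u hu
    have de := e1 e he
    simp only [inner_sub_right, inner_smul_right, hN₀, hN₁, huN, heN] at du de
    rw [← hN₀, ← hN₁] at du de
    rw [← hN₀] at n0 u0
    rw [← hN₁] at n1 u1
    have p0 : 0 < ‖N₀‖ := by linarith
    have p1 : 0 < ‖N₁‖ := by linarith
    rw [← sub_mul, abs_mul, hk1, mul_one] at du
    have hNN : |‖N₁‖ - ‖N₀‖| ≤ 203 * 203 * D := by
      have e' : ‖N₁‖ - ‖N₀‖ = -(‖N₁‖ * ‖N₀‖ * (‖N₁‖⁻¹ - ‖N₀‖⁻¹)) := by field_simp; ring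
      rw [e', abs_neg, abs_mul, abs_mul, abs_of_pos p0, abs_of_pos p1]
      exact mul_le_mul (mul_le_mul u1 u0 p0.le (by norm_num)) du (abs_nonneg _) (by norm_num)
    have e' : A₁ - A₀ = ‖N₁‖ * (‖N₁‖⁻¹ * A₁ - ‖N₀‖⁻¹ * A₀) +
        A₀ * ((‖N₁‖ - ‖N₀‖) / ‖N₀‖) := by field_simp; ring
    have hA : |A₁ - A₀| ≤ 203 * D + 101 * (203 * 203 * D) := by
      rw [e']
      refine (abs_add_le _ _).trans (add_le_add ?_ ?_)
      · rw [abs_mul, abs_of_pos p1]; exact mul_le_mul u1 de (abs_nonneg _) (by norm_num)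
      · rw [abs_mul, abs_div, abs_of_pos p0]
        exact mul_le_mul hA₀ ((div_le_self (abs_nonneg _) n0).trans hNN) (by positivity)
          (by norm_num)
    have : 0 ≤ D := norm_nonneg _
    rw [div_le_iff₀ (by norm_num)]
    linarith

/-- The inequality for one body, given constants. -/
lemma improved_core {K : Set R3} (hK : Normal K) {hm θ C ρ δ g l τ : ℝ} (hm0' : 0 < hm)
    (hm1 : hm = ballVol / 8000) (hθ0 : 0 < θ) (hθm : θ = hm / 16 / 10000000)
    (hC : C = 8 * ballVol * (241920 / θ)) (hρ0 : 0 < ρ) (hρ1 : ρ ≤ 1 / 20) (hρ2 : ρ ≤ hm)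
    (hC3 : 3 * (C * ρ ^ 2) ≤ ρ / 200) (hδ0 : 0 < δ) (hδ1 : δ ≤ 1) (hδρ : 2 * δ ≤ ρ ^ 2 / 64)
    (hg1 : g ≤ ballVol / 1000) (hg2 : g ≤ 3 / 100 * (δ / 2 * (δ / 40) ^ 2))
    (hl0 : 0 < l) (hlh : l ≤ 1 / 2) (hl1 : l * (6 * (C * ρ ^ 2 + 1)) ≤ g) (hτ0 : 0 < τ)
    (hτh : τ ≤ 1) (hτ1 : τ * (32 * ballVol) ≤ g) (hτ2 : τ * (3200 * ballVol) ≤ l * ρ) :
    Improved τ K := by
  have hb := ballVol_pos
  obtain ⟨S, hS, hSball, hSfin, hSvol⟩ :=
    exists_cut hK (δ := 2 * δ) (θ := θ) hθ0 hρ0 hρ1 (by positivity) hδρ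
  rw [← hC] at hSvol
  have hm0 : MeasurableSet (K \ S) := hK.compact.measurableSet.diff hS.measurableSet
  refine ⟨K \ S, hm0, sdiff_subset, l, hl0.le, hlh, fun u x hu => ?_⟩
  set V := (volume K).toReal with hV
  set V₀ := (volume (K \ S)).toReal with hV₀
  have hKfin : volume K ≠ ∞ := hK.compact.measure_ne_top
  have hV₀' : V₀ ≤ V := ENNReal.toReal_mono hKfin (measure_mono sdiff_subset)
  have hV₀'' : V ≤ V₀ + C * ρ ^ 2 := by
    have := ENNReal.toReal_mono (ENNReal.add_ne_top.2 ⟨measure_ne_top_of_subset sdiff_subset hKfin,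
      hSfin⟩) ((measure_mono (μ := volume) (show K ⊆ K \ S ∪ S by simp)).trans
        (measure_union_le _ _))
    rw [ENNReal.toReal_add (measure_ne_top_of_subset sdiff_subset hKfin) hSfin] at this
    linarith
  obtain ⟨hVl, hVu⟩ := volume_bounds hK
  obtain ⟨e, n, ψ, he, hn, hen, heu, hnu, hmp, hψ⟩ := frame hu
  have hB := coord_boxed hK he hn hu hen heu hnu hψ
  rw [← shadow_eq he hn hu hen heu hnu hψ]
  obtain ⟨hP1, hP2⟩ := shadow_bounds hB
  set P := (volume (shadow (ψ '' K))).toReal with hP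
  have hvol : volume (ψ '' K) = volume K := by
    rw [← hmp.measure_preimage_emb ψ.measurableEmbedding, preimage_image_eq _ ψ.injective]
  -- the line in coordinates
  set y := (ψ x).1 with hy
  set t0 := (ψ x).2 with ht0
  have hline : ∀ t : ℝ, ψ (x + t • u) = (y, t0 + t) := fun t => by
    simp [hy, ht0, hψ, inner_add_right, inner_smul_right, heu, hnu, hu]
  have hrhs : 3 * V - τ * (8 * ballVol) - 3 * (l * (C * ρ ^ 2)) ≤
      (3 - τ) * ((1 - l) * V + l * V₀) := by
    have := mul_le_mul_of_nonneg_left (show V - V₀ ≤ C * ρ ^ 2 by linarith) hl0.le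
    have h4 : (1 - l) * V + l * V₀ ≤ 8 * ballVol := by
      have := mul_le_mul_of_nonneg_left hV₀' hl0.le; linarith
    have := mul_le_mul_of_nonneg_left h4 hτ0.le
    linarith
  have hlen0 : len (K \ S) x u ≤ len K x u := by
    refine ENNReal.toReal_mono ?_ (measure_mono (preimage_mono sdiff_subset))
    have hc : IsCompact ((fun t : ℝ => x + t • u) ⁻¹' K) :=
      (Topology.IsClosedEmbedding.isCompact_preimage (f := fun t : ℝ => x + t • u) (by
        have hi : Topology.IsClosedEmbedding (fun t : ℝ => t • u) :=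
          isClosedEmbedding_smul_left (norm_ne_zero_iff.1 (by rw [hu]; norm_num))
        exact (Homeomorph.addLeft x).isClosedEmbedding.comp hi) hK.compact)
    exact hc.measure_ne_top
  have hsh : ∀ t, x + t • u ∈ K ↔ (y, t0 + t) ∈ ψ '' K := fun t => by
    rw [← hline, ψ.injective.mem_set_image]
  rcases fibre_Icc hB.compact hB.convex y with hemp | ⟨a, b, hab, hfib⟩
  · have h0 : (fun t : ℝ => x + t • u) ⁻¹' K = ∅ := eq_empty_of_forall_notMem fun t ht =>
      eq_empty_iff_forall_notMem.1 hemp _ ((hsh t).1 ht)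
    have h1 : len K x u = 0 := by rw [len, h0, measure_empty]; rfl
    have h2 : len (K \ S) x u = 0 := le_antisymm (h1 ▸ hlen0) ENNReal.toReal_nonneg
    rw [h1, h2]
    have : 0 ≤ (1 - l) * V + l * V₀ := by
      have : 0 ≤ V := ENNReal.toReal_nonneg
      have : 0 ≤ V₀ := ENNReal.toReal_nonneg
      nlinarith
    simp only [mul_zero, add_zero, zero_mul]
    exact mul_nonneg (by linarith) (by assumption)
  have hpre : (fun t : ℝ => x + t • u) ⁻¹' K = Icc (a - t0) (b - t0) := by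
    ext t
    rw [mem_preimage, hsh, ← mem_preimage (f := Prod.mk y), hfib, mem_Icc, mem_Icc]
    constructor <;> rintro ⟨h1, h2⟩ <;> constructor <;> linarith
  have hlK : len K x u = b - a := by
    rw [len, hpre, Real.volume_Icc, ENNReal.toReal_ofReal (by linarith)]; ring
  set h := b - a with hh
  have h1 : ((y, a) : G3) ∈ ψ '' K := by
    rw [← mem_preimage (f := Prod.mk y), hfib]; exact ⟨le_rfl, hab⟩
  have h2 : ((y, a + h) : G3) ∈ ψ '' K := by
    rw [hh, add_sub_cancel, ← mem_preimage (f := Prod.mk y), hfib]; exact ⟨hab, le_rfl⟩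
  have hh0 : 0 ≤ h := by linarith
  have hRS := chord_mul_area hB hh0 h1 h2
  rw [hvol, ← hV, ← hP] at hRS
  have hmix : (1 - l) * len K x u + l * len (K \ S) x u ≤ h := by
    have := mul_le_mul_of_nonneg_left hlen0 hl0.le
    rw [hlK] at this ⊢; linarith
  have hsmallOK : h * P ≤ 3 * V - g → ((1 - l) * len K x u + l * len (K \ S) x u) * P ≤
      (3 - τ) * ((1 - l) * V + l * V₀) := fun hgain => by
    have := mul_le_mul_of_nonneg_right hmix (show 0 ≤ P by linarith)
    linarith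
  by_cases hsmall : h < hm
  · refine hsmallOK ?_
    have := mul_le_mul hsmall.le hP2 (by linarith) (by positivity)
    linarith
  push Not at hsmall
  have hhp : 0 < h := lt_of_lt_of_le (by positivity) hsmall
  rcases dichotomy hB hhp h1 h2 hδ0 hδ1 with hgain | hT
  · refine hsmallOK ?_
    rw [hvol, ← hV, ← hP] at hgain
    have := mul_le_mul_of_nonneg_left hP1 (show 0 ≤ δ / 2 * (δ / 40) ^ 2 by positivity)
    linarith
  -- an endpoint is a ridge point, and loses ρ of its line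
  have hend : ∀ c, (y, c) ∈ ψ '' K → TwoNormals (ψ '' K) (y, c) (2 * δ) (h / 16) →
      ∀ t, |t + t0 - c| < ρ → x + t • u ∈ S := by
    intro c hc hTc t ht
    obtain ⟨p, hp, hpc⟩ := hc
    rw [← hpc] at hTc
    have hr := ridge_of_two he hn hu heu hen hnu hψ hp hTc
    refine hSball p ⟨hr.1, ?_⟩ ?_
    · obtain ⟨-, n₀, n₁, q1, q2, q3, q4⟩ := hr
      exact ⟨n₀, n₁, q1, q2, q3, le_trans (by linarith) q4⟩
    · have hp' : p = x + (c - t0) • u := ψ.injective (by rw [hpc, hline, add_sub_cancel])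
      rw [mem_ball, dist_eq_norm, hp', add_sub_add_left_eq_sub, ← sub_smul, norm_smul, hu,
        mul_one, Real.norm_eq_abs]
      rwa [show t - (c - t0) = t + t0 - c by ring]
  have hcut : len (K \ S) x u ≤ h - ρ := by
    rcases hT with hT | hT
    · have hsub : (fun t : ℝ => x + t • u) ⁻¹' (K \ S) ⊆ Icc (a - t0 + ρ) (b - t0) := by
        intro t ht
        have h' : t ∈ Icc (a - t0) (b - t0) := hpre ▸ ht.1
        refine ⟨?_, h'.2⟩
        by_contra hlt
        push Not at hlt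
        exact ht.2 (hend a h1 hT t (by rw [abs_of_nonneg (by linarith [h'.1])]; linarith))
      refine (ENNReal.toReal_mono measure_Icc_lt_top.ne (measure_mono hsub)).trans ?_
      rw [Real.volume_Icc, ENNReal.toReal_ofReal (by linarith)]; linarith
    · have hsub : (fun t : ℝ => x + t • u) ⁻¹' (K \ S) ⊆ Icc (a - t0) (b - t0 - ρ) := by
        intro t ht
        have h' : t ∈ Icc (a - t0) (b - t0) := hpre ▸ ht.1
        refine ⟨h'.1, ?_⟩
        by_contra hlt
        push Not at hlt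
        exact ht.2 (hend (a + h) h2 hT t (by
          rw [abs_of_nonpos (by linarith [h'.2])]; linarith))
      refine (ENNReal.toReal_mono measure_Icc_lt_top.ne (measure_mono hsub)).trans ?_
      rw [Real.volume_Icc, ENNReal.toReal_ofReal (by linarith)]; linarith
  have e1 : ((1 - l) * len K x u + l * len (K \ S) x u) * P ≤ h * P - l * ρ * P := by
    rw [hlK, ← sub_mul]
    refine mul_le_mul_of_nonneg_right ?_ (by linarith)
    have := mul_le_mul_of_nonneg_left hcut hl0.le; linarith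
  have := mul_le_mul_of_nonneg_left hP1 (mul_nonneg hl0.le hρ0.le)
  have := mul_le_mul_of_nonneg_left hC3 hl0.le
  have := mul_pos hl0 hρ0
  linarith

/-- Every body in normal position is improved by a fixed amount. -/
theorem improved_normal : ∃ τ : ℝ, 0 < τ ∧ τ ≤ 1 ∧ ∀ K : Set R3, Normal K → Improved τ K := by
  have hb := ballVol_pos
  set hm := ballVol / 8000 with hhm
  set θ := hm / 16 / 10000000 with hθ
  have hθ0 : 0 < θ := by positivity
  set C := 8 * ballVol * (241920 / θ) with hC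
  have hC0 : 0 < C := by positivity
  set ρ := min (1 / 20) (min hm (1 / (600 * C))) with hρ
  have hρ0 : 0 < ρ := lt_min (by norm_num) (lt_min (by positivity) (by positivity))
  have hρ1 : ρ ≤ 1 / 20 := min_le_left _ _
  have hρ2 : ρ ≤ hm := (min_le_right _ _).trans (min_le_left _ _)
  have hρ3 : ρ ≤ 1 / (600 * C) := (min_le_right _ _).trans (min_le_right _ _)
  set δ := ρ ^ 2 / 128 with hδ
  have hδ0 : 0 < δ := by positivity
  have hδ1 : δ ≤ 1 := by rw [hδ]; nlinarith
  set g := min (ballVol / 1000) (3 / 100 * (δ / 2 * (δ / 40) ^ 2)) with hg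
  have hg0 : 0 < g := lt_min (by positivity) (by positivity)
  set l := min (1 / 2) (g / (6 * (C * ρ ^ 2 + 1))) with hl
  have hl0 : 0 < l := lt_min (by norm_num) (by positivity)
  set τ := min 1 (min (g / (32 * ballVol)) (l * ρ / (3200 * ballVol))) with hτ
  have hτ0 : 0 < τ := lt_min one_pos (lt_min (by positivity) (by positivity))
  refine ⟨τ, hτ0, min_le_left _ _, fun K hK => improved_core hK (by positivity) hhm hθ0 hθ hC hρ0
    hρ1 hρ2 ?_ hδ0 hδ1 (by rw [hδ]; linarith) (min_le_left _ _) (min_le_right _ _) hl0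
    (min_le_left _ _) ((le_div_iff₀ (by positivity)).1 (min_le_right _ _)) hτ0 (min_le_left _ _)
    ((le_div_iff₀ (by positivity)).1 ((min_le_right _ _).trans (min_le_left _ _)))
    ((le_div_iff₀ (by positivity)).1 ((min_le_right _ _).trans (min_le_right _ _)))⟩
  rw [le_div_iff₀ (by positivity)] at hρ3
  have := mul_le_mul_of_nonneg_right hρ3 hρ0.le
  linarith

end Vale.Agent.P243.Third
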